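import Vale.Agent.P014Y.Rk.St
import Vale.Agent.P014Y.Rd.Cas

/-! # P014Y, block RK: the split plane of a reducible curve (helper40) -/

set_option autoImplicit false
set_option linter.all false

noncomputable section

namespace Vale.Agent.P014Y.Rk

open Matrix
open Vale.Agent.P022 (Qb GQ)
open Vale.Agent.P014U
open L2 (W M2)
open P014Y.F (Crv Fld)
open Mu
open Bo (dg)
open Rd (Flg)

section

variable [Pp] {a : GQ →* M2} {θ θ' : GQ →* F} {v : W}

theorem dg_dg (θ θ' : GQ →* F) : Dg (dg θ θ') := fun g i j n => diagonal_apply_ne _ n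

theorem dg_det (θ θ' : GQ →* F) (g : GQ) : (dg θ θ' g).det = θ g * θ' g := by
  simp [dg, det_fin_two]

theorem dg_tr (θ θ' : GQ →* F) (g : GQ) : (dg θ θ' g).trace = θ g + θ' g := by
  simp [dg, trace_fin_two]

theorem dg_on1 {g : GQ} (h : θ g = 1) (h' : θ' g = 1) : dg θ θ' g = 1 := by
  ext i j; fin_cases i <;> fin_cases j <;> simp [dg, h, h']

theorem flg_one (l : Flg a θ θ' v) {g : GQ} (h : a g = 1) : θ g = 1 ∧ θ' g = 1 := by
  have e : θ g = 1 := smul_left_injective _ l.ne (by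
    show θ g • v = _ • v
    rw [← l.ev, h, one_mulVec, one_smul])
  exact ⟨e, by simpa [h, e] using (l.dt g).symm⟩

theorem flg_ker (l : Flg a θ θ' v) {g : GQ} (h : a g = 1) : dg θ θ' g = 1 :=
  dg_on1 (flg_one l h).1 (flg_one l h).2

theorem flg_det (l : Flg a θ θ' v) (g : GQ) : (dg θ θ' g).det = (a g).det :=
  (dg_det θ θ' g).trans (l.dt g).symm

theorem flg_tr (l : Flg a θ θ' v) (g : GQ) : (dg θ θ' g).trace = (a g).trace :=
  (dg_tr θ θ' g).trans (l.tr g).symm

theorem flg_rs (l : Flg a θ θ' v) {S : Finset ℕ} (r : Rs a S) : Rs (dg θ θ') S :=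
  ⟨⟨Subgroup.isOpen_mono (fun _ m => flg_ker l m) r.opn,
    (funext fun g => flg_det l g).trans r.det⟩, r.pm, r.pr, fun g m => flg_ker l (r.unr g m)⟩

/-- **the split plane of a curve with a stable line** -/
theorem rae (hR : RSE) {e : Crv} (l : Flg (rb e) θ θ' v) : Ra e (dg θ θ') :=
  ⟨dg_dg θ θ', flg_rs l (hR e).1, fun _ => flg_ker l⟩

/-- **a reducible curve has a split plane** -/
theorem ex_ra (hR : RSE) (e : Crv) (n : ¬ Top.Irr e.par.disc) : ∃ (θ θ' : GQ →* F) (v : W),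
    Flg (rb e) θ θ' v ∧ Ra e (dg θ θ') :=
  let ⟨θ, θ', v, l⟩ := Rd.flg_of n
  ⟨θ, θ', v, l, rae hR l⟩

end

end Vale.Agent.P014Y.Rk
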