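import Vale.Agent.P014Y.Rk.St
import Vale.Agent.P014Y.Md.Sup
import Vale.Agent.P022K.CH.Mink
import Vale.Agent.P022K.G2.Unr

/-! # P014Y, block RK, row CHVA: the supply of primes for split planes -/

set_option autoImplicit false
set_option linter.all false

noncomputable section

namespace Vale.Agent.P014Y.Rk

open NumberField Matrix
open Vale.Agent.P022 (Qb GQ)
open Vale.Agent.P022E.GW (Ov Fb)
open Vale.Agent.P022K.G2 (In Lv)
open Vale.Agent.P014U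
open L2 (W M2)
open X4S (Pl Rp Rep)
open P014U.Mu.Sa (Z1 B1)
open P014T.Dr (Hm Hm_le Hm_open inert_Hm Ha_le)
open P014Y.F (Crv Fld)
open P014Y.Mu P014Y.Mu.Cv
open Md (U1)

namespace Cv

section

variable [Pp] {a : GQ →* M2} {j : Fin 2} {z : X}

theorem ln (d : Dg a) (g : GQ) {w : W} (h : ∀ i, i ≠ j → w i = 0) : a g *ᵥ w = a g j j • w := by
  funext i
  rw [mulVec, dotProduct, Finset.sum_eq_single i (fun l _ n => by rw [d g i l n.symm, zero_mul])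
    (by simp), Pi.smul_apply, smul_eq_mul]
  by_cases e : i = j
  · rw [e]
  · rw [h i e, mul_zero, mul_zero]

theorem dm (d : Dg a) (g h : GQ) (i : Fin 2) : a (g * h) i i = a g i i * a h i i := by
  rw [map_mul, mul_apply, Finset.sum_eq_single i (fun l _ n => by rw [d g i l n.symm, zero_mul])
    (by simp)]

theorem d_one (d : Dg a) {g : GQ} (h : ∀ i, a g i i = 1) : a g = 1 := by
  ext i l
  by_cases e : i = l
  · rw [e, h, one_apply_eq]
  · rw [d g i l e, one_apply_ne e]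

theorem d_inv (d : Dg a) (g : GQ) (i : Fin 2) : a g i i * a g⁻¹ i i = 1 := by
  rw [← dm d, mul_inv_cancel, map_one, one_apply_eq]

theorem d_cm (d : Dg a) (g h : GQ) : a (g * h * g⁻¹ * h⁻¹) = 1 := d_one d fun i => by
  rw [dm d, dm d, dm d, mul_right_comm (a g i i), d_inv d, one_mul, d_inv d]

theorem d_pow (d : Dg a) (g : GQ) : a (g ^ (pp - 1)) = 1 := d_one d fun i => by
  have q (n : ℕ) : a (g ^ n) i i = a g i i ^ n := by
    induction n with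
    | zero => rw [pow_zero, pow_zero, map_one, one_apply_eq]
    | succ n ih => rw [pow_succ, pow_succ, dm d, ih]
  rw [q]
  exact ZMod.pow_card_sub_one_eq_one (left_ne_zero_of_mul_eq_one (d_inv d g i))

/-- a class which vanishes on `U` is trivial -/
theorem van {pl : Pl} {T : Finset ℕ} (d : Dg a) (t : Ty a pl T j z) {U : Subgroup GQ} {n : ℕ}
    (cm : ∀ x y : GQ, x * y * x⁻¹ * y⁻¹ ∈ U) (pw : ∀ h ∈ Hm (pp ^ n), h ^ (pp - 1) ∈ U)
    (h : ∀ u ∈ U, z u = 0) : z ∈ Bl a ⊤ := by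
  have co : ∀ g h, z (g * h) = z g + a g j j • z h := fun g h =>
    (t.1.1.1 g trivial h trivial).trans (congrArg _ (ln d g (t.1.2 h)))
  by_cases v : Tv a j
  · have c1 : ∀ g h, z (g * h) = z g + z h := fun g h => by rw [co, v, one_smul]
    let f : GQ →* Multiplicative W := MonoidHom.mk' (fun g => .ofAdd (z g)) fun g h =>
      congrArg Multiplicative.ofAdd (c1 g h)
    have hm : ∀ g ∈ Hm (pp ^ n), g ∈ f.ker := fun g m => by
      have := (map_pow f g (pp - 1)).symm.trans (congrArg Multiplicative.ofAdd (h _ (pw g m)))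
      have k : (pp - 1) • z g = 0 := congrArg Multiplicative.toAdd this
      rw [← Nat.cast_smul_eq_nsmul F, Nat.cast_sub pp_prime.one_le, ZMod.natCast_self,
        Nat.cast_one, zero_sub, neg_smul, one_smul, neg_eq_zero] at k
      exact congrArg Multiplicative.ofAdd k
    obtain ⟨w, hw⟩ := (t.2 v).2
    have top := P022K.CH.mink_top f.ker (Subgroup.isOpen_mono hm (Hm_open (pow_ne_zero n pp_ne)))
      fun l Q o g i => by
        by_cases e : l = pp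
        · subst e
          obtain ⟨s, hs, -⟩ := P004S.ex_conj (pl.ov _ pp_prime) o
          have k : s⁻¹ * g * s ∈ f.ker := congrArg Multiplicative.ofAdd (funext fun i' => by
            by_cases e : i' = j
            · rw [hw _ (hs g i), e]
              show (a _ *ᵥ w - w) j = 0
              rw [Pi.sub_apply, mulVec, dotProduct, Finset.sum_eq_single j
                (fun l _ n => by rw [d _ j l n.symm, zero_mul]) (by simp), v, one_mul, sub_self]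
            · exact t.1.2 _ i' e)
          simpa [mul_assoc] using f.normal_ker.conj_mem _ k s
        · exact hm g (inert_Hm o (Dr.nd_two o e n) i)
    refine ⟨0, fun g _ => ?_⟩
    rw [map_zero]
    exact congrArg Multiplicative.toAdd (show g ∈ f.ker from top ▸ trivial)
  · obtain ⟨c, hc⟩ := not_forall.1 v
    refine ⟨(a c j j - 1)⁻¹ • z c, fun g _ => ?_⟩
    have k := co (g * c * g⁻¹ * c⁻¹) (c * g)
    rw [h _ (cm g c), d_cm d, one_apply_eq, one_smul, zero_add,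
      show g * c * g⁻¹ * c⁻¹ * (c * g) = g * c by group, co, co] at k
    show z g = a g *ᵥ _ - _
    rw [mulVec_smul, ln d g (t.1.2 c), ← smul_sub, eq_inv_smul_iff₀ (sub_ne_zero.2 hc), sub_smul,
      one_smul]
    linear_combination (exp := 1) -k

/-- **all classes are not zero at one element** -/
theorem val {ι : Type} [Finite ι] {a : ι → GQ →* M2} {pl : Pl} {T : Finset ℕ} (d : ∀ i, Dg (a i))
    (df : ∀ s s' : ι × Fin 2, s ≠ s' → ∃ g, a s.1 g s.2 s.2 ≠ a s'.1 g s'.2 s'.2)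
    {U : Subgroup GQ} {n : ℕ} (nU : U.Normal) (k1 : ∀ g ∈ U, ∀ i, a i g = 1)
    (cm : ∀ x y : GQ, x * y * x⁻¹ * y⁻¹ ∈ U) (pw : ∀ h ∈ Hm (pp ^ n), h ^ (pp - 1) ∈ U)
    {z : ι → Fin 2 → X} (t : ∀ i j, Ty (a i) pl T j (z i j)) :
    ∃ g ∈ U, ∀ i j, z i j ∉ Bl (a i) ⊤ → z i j g ≠ 0 := by
  classical
  have := Fintype.ofFinite ι
  have hz (s : ι × Fin 2) : Z1 ((fun s : ι × Fin 2 => a s.1) s) ((fun s : ι × Fin 2 => z s.1 s.2) s) :=
    fun g h => (t s.1 s.2).1.1.1 g trivial h trivial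
  have l1 v (m : v ∈ vl hz U) g s : a s.1 g *ᵥ v s = a s.1 g s.2 s.2 • v s := by
    obtain ⟨u, -, -, e⟩ := m
    exact ln (d _) g (e s ▸ (t s.1 s.2).1.2 u)
  have k s (hs : z s.1 s.2 ∉ Bl (a s.1) ⊤) (B : Finset (ι × Fin 2)) :
      ∃ v ∈ vl hz U, v s ≠ 0 ∧ ∀ s' ∈ B, s' ≠ s → v s' = 0 := by
    induction B using Finset.induction_on with
    | empty =>
      by_contra! k
      refine hs (van (d _) (t _ _) cm pw fun u m => by_contra fun f => ?_)
      exact (k _ ⟨u, m, fun s => k1 u m s.1, fun _ => rfl⟩ f).elim (by simp)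
    | insert r B _ ih =>
      obtain ⟨v, m, v0, h⟩ := ih
      by_cases e : r = s
      · exact ⟨v, m, v0, Finset.forall_mem_insert _ _ _ |>.2 ⟨fun q => (q e).elim, h⟩⟩
      obtain ⟨g, hg⟩ := df s r (Ne.symm e)
      refine ⟨_, sub_mem (vl_st hz nU g m) (ZMod.smul_mem m (a r.1 g r.2 r.2)), ?_,
        Finset.forall_mem_insert _ _ _ |>.2 ⟨fun _ => ?_, fun l ml q => by simp [h l ml q]⟩⟩
      · rw [Pi.sub_apply, Pi.smul_apply, l1 v m, ← sub_smul]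
        exact smul_ne_zero (sub_ne_zero.2 hg) v0
      · rw [Pi.sub_apply, Pi.smul_apply, l1 v m, sub_self]
  have k' (s : ι × Fin 2) : ∃ v ∈ vl hz U, (z s.1 s.2 ∉ Bl (a s.1) ⊤ → v s ≠ 0) ∧
      ∀ s', s' ≠ s → v s' = 0 := by
    by_cases hs : z s.1 s.2 ∈ Bl (a s.1) ⊤
    · exact ⟨0, zero_mem _, fun n => (n hs).elim, fun _ _ => rfl⟩
    · obtain ⟨v, m, v0, h⟩ := k s hs Finset.univ
      exact ⟨v, m, fun _ => v0, fun s' => h s' (Finset.mem_univ _)⟩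
  choose v m v0 h using k'
  obtain ⟨g, gU, -, e⟩ : ∑ s, v s ∈ vl hz U := sum_mem fun s _ => m s
  refine ⟨g, gU, fun i j n => (e (i, j)).trans_ne ?_⟩
  rw [Finset.sum_apply, Finset.sum_eq_single (i, j) (fun s _ q => h s _ q.symm) (by simp)]
  exact v0 (i, j) n

/-- **a prime with a given Frobenius element** -/
theorem supply {ι : Type} [Finite ι] {a : ι → GQ →* M2} (pl : Pl) {S S₀ : Finset ℕ} {r : Rp}
    (h : ∀ i, Rs (a i) S) (hr : Rep r S₀)
    (hd : ∀ g ∈ Hm pp, ‖X4S.ep r g - 1‖ ≤ 1 / pp) {k : GQ} (bk : X4F.En.Big r k)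
    (k1 : ∀ i, a i k = 1) : ∃ m, ∀ (n : ℕ) (U : Subgroup GQ) (E : Finset ℕ),
    U.Normal → IsOpen (U : Set GQ) → In E ⊆ U → U ≤ Hm (pp ^ (n + 1)) → k ∈ U →
    ∀ (κ : Type) [Finite κ] (π : κ → ι) (z : κ → X) (T : Finset ℕ), (∀ s, z s ∈ Zg (a (π s)) T) →
    ∀ g ∈ U, (∀ i, a i g = 1) → ∃ q ∉ T, (q.Prime ∧ q ∉ E ∧
      q ∉ S ∧ q ∉ S₀ ∧ q % pp ^ (n + 1) = 1 ∧ X4F.En.Gq r m (pl.σ q) ∧
      pl.σ q ∈ U ∧ ∀ i, a i (pl.σ q) = 1) ∧ ∀ s, z s (pl.σ q) = 0 → z s g = 0 := by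
  classical
  obtain ⟨m, hm⟩ := bk.gq hr pp_ne
  refine ⟨m, fun n U E nU oU iU le hk κ _ π z T hz g gU g1 => ?_⟩
  have co s : Z1 (a (π s)) (z s) := fun g g' => (hz s).1 g trivial g' trivial
  choose V lV hV using fun s => (hz s).2.2
  have m1 : g ∈ Hm (pp ^ (n + 1)) := le gU
  obtain ⟨j, -, hj⟩ := hm g (hd _ (Hm_le (dvd_pow_self _ n.succ_ne_zero) m1))
  have kU := pow_mem hk (pp * j)
  have ka i : a i (k ^ (pp * j)) = 1 := by rw [map_pow, k1, one_pow]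
  have kz s := z_pp (co s) (k1 _) j
  generalize k ^ (pp * j) = κ at *
  have oV : IsOpen (((⨅ i, (a i).ker) ⊓ ⨅ s, V s : Subgroup GQ) : Set GQ) := by
    rw [Subgroup.coe_inf, Subgroup.coe_iInf, Subgroup.coe_iInf]
    exact (isOpen_iInter_of_finite fun i => (h i).opn).inter
      (isOpen_iInter_of_finite fun s => (lV s).opn)
  obtain ⟨q, hq, qT, v, ⟨⟨b1, b2⟩, b3, b4⟩, fr⟩ := ex_fr
    (O := U ⊓ hr.Kn (m + 1) ⊓ ((⨅ i, (a i).ker) ⊓ ⨅ s, V s))
    ((oU.inter (hr.Kn_open _)).inter oV) (g * κ) (E ∪ S ∪ S₀ ∪ T)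
  simp only [Finset.mem_union, not_or] at qT
  obtain ⟨⟨⟨qE, qS⟩, q0⟩, qT⟩ := qT
  have ov := pl.ov q hq
  obtain ⟨x, s, hs, e⟩ := P004R.Wr.fb_cj ov (pl.fb q hq) fr
  have iE : s ∈ U := iU ⟨q, qE, _, ov, hs⟩
  have iS i : a i s = 1 := (h i).unr s ⟨q, qS, _, ov, hs⟩
  have e2 : s * pl.σ q = x⁻¹ * (g * κ * v) * x⁻¹⁻¹ := by rw [e]; group
  have av i : a i v = 1 := Subgroup.mem_iInf.1 b3 i
  have a1 i : a i (g * κ * v) = 1 := by rw [map_mul, map_mul, g1, ka, av, mul_one, mul_one]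
  obtain ⟨Q, p1, p2, f⟩ := fr
  refine ⟨q, qT, ⟨hq, qE, qS, q0, P014U.Mu.Cb.fb_mod ⟨hq, p1, p2⟩ (hr.ne_two q0) f
    (mul_mem (mul_mem m1 (le kU)) (le b1)), ?_, (mul_mem_cancel_left iE).1
      (e2 ▸ nU.conj_mem _ (mul_mem (mul_mem gU kU) b1) _), fun i => ?_⟩, fun t c => ?_⟩
  · have := (hj.mul hr b2).conj x⁻¹
    rwa [← e2, X4F.En.Gq, X4S.ep, X4S.mt_mul, hr.mt_inert ov q0 hs, one_mul] at this
  · have : a i (s * pl.σ q) = 1 := e2 ▸ (a i).normal_ker.conj_mem _ (a1 i) _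
    rwa [map_mul, iS, one_mul] at this
  · have := (co t).cj (a1 _) x⁻¹
    rw [← e2, co t, iS, one_mulVec, Lo.zg_in (hz t) ⟨q, qT, _, ov, hs⟩, zero_add, co t, co t, kz t,
      show z t v = 0 from hV t v trivial (Subgroup.mem_iInf.1 b4 t), mulVec_zero, mulVec_zero,
      add_zero, add_zero, c] at this
    exact inj (a _) _ this.symm

end

end Cv

open Cv in
/-- **row CHVA** -/
theorem chva : CHVA := fun e b a pl ra => by
  classical
  have nu0 : ∀ g ∈ In (Sd b : Set ℕ), P004S.nu (-b.δ') g = 0 := fun g m =>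
    (b.kd.gk _).1 (in_le b m)
  have r1 := rs_mono ra.rs Finset.subset_union_left (sd_pr b)
  have rs : ∀ i, Rs (![a, tw (-b.δ') a] i) (Sd b) := Fin.forall_fin_two.2 ⟨r1, rs_tw r1 nu0⟩
  have dg : ∀ i, Dg (![a, tw (-b.δ') a] i) := Fin.forall_fin_two.2 ⟨ra.dg, fun g i j n => by
    show _ * a g i j = 0
    rw [ra.dg g i j n, mul_zero]⟩
  have k0 : ∀ g ∈ b.Γ, a g = 1 → ∀ i, (![a, tw (-b.δ') a] i) g = 1 := fun g m h =>
    Fin.forall_fin_two.2 ⟨h, (tw_eq ((b.kd.gk _).1 m)).trans h⟩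
  obtain ⟨t, t0, t1⟩ := b.ex_ker
  have t2 : a t = 1 := ra.ker t (Tp.Ro.of e t1)
  have t3 : tw (-b.δ') a t = -1 := by
    show (if _ then 1 else -1 : F) • a t = _
    rw [if_neg (mt (b.kd.gk _).2 t0), t2, neg_smul, one_smul]
  have df : ∀ s s' : Fin 2 × Fin 2, s ≠ s' → ∃ g, (![a, tw (-b.δ') a] s.1) g s.2 s.2 ≠
      (![a, tw (-b.δ') a] s'.1) g s'.2 s'.2 := by
    rintro ⟨i, j⟩ ⟨i', j'⟩ n
    by_cases ii : i = i'
    · subst ii
      obtain ⟨φ, hφ⟩ := b.cc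
      have c1 : ((![a, tw (-b.δ') a] i) b.c).det = -1 :=
        (congrFun (rs i).det b.c).trans (by
          rw [P022K.G2.om, P022K.G2.oz_cc hφ, map_neg, map_one])
      rw [det_fin_two, dg i _ 0 1 (by decide), zero_mul, sub_zero] at c1
      have c2 : (![a, tw (-b.δ') a] i) b.c 0 0 ≠ (![a, tw (-b.δ') a] i) b.c 1 1 := fun q =>
        (by decide : ∀ x : ZMod 3, x * x ≠ -1) _ (q ▸ c1)
      refine ⟨b.c, ?_⟩
      have jj : j ≠ j' := fun q => n (q ▸ rfl)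
      fin_cases j <;> fin_cases j'
      exacts [(jj rfl).elim, c2, c2.symm, (jj rfl).elim]
    · have q : ∀ x y : Fin 2, (1 : M2) x x ≠ (-1 : M2) y y := by decide
      refine ⟨t, ?_⟩
      fin_cases i <;> fin_cases i'
      · exact (ii rfl).elim
      · exact t2 ▸ t3 ▸ q j j'
      · exact t2 ▸ t3 ▸ (q j' j).symm
      · exact (ii rfl).elim
  obtain ⟨k, k1, k2, k3⟩ := b.ex_big
  have k4 : a k = 1 := ra.ker k (e.tr_one.1 (k2.tr.mono (by norm_num)))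
  obtain ⟨m, hm⟩ := supply pl rs e.rep (fun g m => by
      have := (PadicInt.norm_lt_one_iff_dvd _).2 ((dvd_pow_self _ one_ne_zero).trans
        (Pg.Hm_two.1 (pow_one pp ▸ m : g ∈ Hm (pp ^ 1))))
      rw [← X4S.lt_one_iff, show X4S.ep e.rp g = ((e.r g).det : ℤ_[pp]) from
        (RingHom.map_det PadicInt.Coe.ringHom _).symm, Crv.r, X4M.TE.det_cyc]
      exact this) k2 (k0 k k1 k4)
  refine ⟨2 * m + 1, fun n E T z hT hz => ?_⟩
  have p0 := pow_ne_zero (n + 1) pp_ne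
  have pm : pp ∈ Sd b := r1.pm
  have nΓ : (b.Γ ⊓ Hm (pp ^ (n + 1))).Normal :=
    ⟨fun g m t => ⟨b.Γ_conj m.1 t, (P014T.Dr.Hm_normal _).conj_mem g m.2 t⟩⟩
  have sq : ∀ g, g ^ 2 ∈ b.Γ := fun g => by
    rw [pow_two]
    by_cases h : g ∈ b.Γ
    exacts [mul_mem h h, b.mul_out h h]
  obtain ⟨g, gU, hg⟩ := val (n := n + 1) (U := b.Γ ⊓ Hm (pp ^ (n + 1)) ⊓ a.ker) dg df
    inferInstance (fun g m => k0 g m.1.1 m.2) (fun x y => ⟨⟨(b.kd.gk _).2 (by
      rw [P004S.nu_mul, P004S.nu_conj, ← P004S.nu_mul, mul_inv_cancel, P004S.nu_one]),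
      Ha_le p0 (Pg.comm_Ha x y)⟩, d_cm ra.dg x y⟩)
    (fun h m => ⟨⟨sq h, pow_mem m _⟩, d_pow ra.dg h⟩) hz
  obtain ⟨q, qT, ⟨hq, qE, qS, q0, md, gq, v1, v2⟩, h⟩ := hm n (b.Γ ⊓ Hm (pp ^ (n + 1)))
    (E ∪ Sd b) nΓ (b.Γ_open.inter (Hm_open p0)) (fun g ⟨l, m, P, o, i⟩ =>
      have m' : l ∉ Sd b := fun c => m (Finset.mem_union_right _ c)
      ⟨in_le b ⟨l, m', P, o, i⟩, inert_Hm o (Dr.nd_two o (fun c => m' (c ▸ pm)) _) i⟩)
    inf_le_right ⟨k1, fun y hy => k3 _ y (.inl hy)⟩ (Fin 2 × Fin 2) Prod.fst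
    (fun s => z s.1 s.2) T (fun s => (hz s.1 s.2).1.1) g gU.1 (k0 g gU.1.1 gU.2)
  have ov := pl.ov q hq
  have md' : q ≡ 1 [MOD pp ^ (n + 1)] :=
    md.trans (Nat.mod_eq_of_lt (Nat.one_lt_pow n.succ_ne_zero one_lt)).symm
  exact ⟨q, qT, ⟨⟨hq, fun c => qE (Finset.mem_union_left _ c),
    md'.of_dvd (pow_dvd_pow 3 n.le_succ), sq_of b ov qS (pl.fb q hq) v1.1⟩,
    fun i => ⟨hq, qS, v2 i⟩,
    F.Pt.gq_nd ov (mt List.mem_toFinset.2 q0) (pl.fb q hq) gq (Nat.lt_succ_self _)⟩,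
    fun i j n c => hg i j n (h (i, j) c)⟩

end Vale.Agent.P014Y.Rk
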