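import Vale.Agent.P014Y.Rk.St

/-! # P014Y, block RK, row `KLA`: projections; two dead pairs kill (helper4) -/

set_option autoImplicit false
set_option linter.all false

noncomputable section

namespace Vale.Agent.P014Y.Rk

open NumberField Matrix Module
open scoped Classical
open Vale.Agent.P022 (Qb GQ)
open Vale.Agent.P022.H443 (inP)
open Vale.Agent.P022D.W (dec)
open Vale.Agent.P022K.G2 (Lv d0_apply)
open Vale.Agent.P014U
open L2 (W M2 cu)
open X4S (Pl)
open Mu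

variable [Pp]

namespace Ka

/-- the projection of the plane to the line `j` -/
def pw (j : Fin 2) : W →ₗ[F] W := (LinearMap.single F (fun _ => F) j).comp (LinearMap.proj j)

/-- the projection of a function -/
def pr (j : Fin 2) : X →ₗ[F] X := (pw j).compLeft GQ

theorem pw_apply (j i : Fin 2) (v : W) : pw j v i = if i = j then v j else 0 := by
  simp [pw, Pi.single_apply]

theorem pr_apply (j : Fin 2) (x : X) (g : GQ) : pr j x g = pw j (x g) := rfl

variable {a a' : GQ →* M2} {j j' : Fin 2} {D : Subgroup GQ} {x y : X} {P : Ideal (𝓞 Qb)}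
  {pl : Pl} {S Q : Finset ℕ}

theorem pw_mul (d : Dg a) (g : GQ) (v : W) : pw j (a g *ᵥ v) = a g *ᵥ pw j v := by
  have e0 := d g 0 1 (by decide)
  have e1 := d g 1 0 (by decide)
  funext i
  fin_cases i <;> fin_cases j <;> simp [pw_apply, mulVec, dotProduct, e0, e1]

theorem pr_add (n : j ≠ j') (x : X) : pr j x + pr j' x = x := by
  funext g i
  fin_cases i <;> fin_cases j <;> fin_cases j' <;> simp_all [pr_apply, pw_apply]

theorem pr_cm (j : Fin 2) (x : X) : pr j x ∈ Cm j := fun g i n => by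
  rw [pr_apply, pw_apply, if_neg n]

theorem pr_of (h : x ∈ Cm j) : pr j x = x := by
  funext g i
  rw [pr_apply, pw_apply]
  split_ifs with e
  · rw [e]
  · exact (h g i e).symm

theorem wp_pw (j : Fin 2) (u v : W) : P004S.wp u (pw j v) = P004S.wp (pw (j + 1) u) v := by
  fin_cases j <;> simp [P004S.wp, pw_apply]

theorem cl (d : Dg a) (h : x ∈ Cl a D) : pr j x ∈ Cl a D :=
  ⟨fun g m k n => by rw [pr_apply, h.1 g m k n, map_add, pw_mul d]; rfl,
    h.2.imp fun U u => ⟨u.1, fun w m n => by rw [pr_apply, u.2 w m n, map_zero]⟩⟩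

theorem bl (d : Dg a) (h : x ∈ Bl a D) : pr j x ∈ Bl a D :=
  let ⟨v, e⟩ := h
  ⟨pw j v, fun g m => by
    rw [pr_apply, e g m, d0_apply, d0_apply, map_sub, mulVecLin_apply, mulVecLin_apply, pw_mul d]⟩

theorem ur (d : Dg a) (h : x ∈ Ur a P) : pr j x ∈ Ur a P := ⟨cl d h.1, bl d h.2⟩

theorem vs (d : Dg a) {σ : GQ} (h : x ∈ Vs a σ) : pr j x ∈ Vs a σ :=
  let ⟨v, e⟩ := (mem_Vs a).1 h
  (mem_Vs a).2 ⟨pw j v, by rw [pr_apply, ← e, map_sub, pw_mul d]⟩

theorem zg (d : Dg a) {T : Finset ℕ} (h : x ∈ Zg a T) : pr j x ∈ Zg a T :=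
  ⟨fun g m k n => by
      rw [pr_apply, h.1 g m k n, map_add, mulVecLin_apply, mulVecLin_apply, pw_mul d]; rfl,
    fun g m => absurd trivial m,
    h.2.2.imp fun U u => ⟨u.1, fun w m n => by rw [pr_apply, u.2 w m n, map_zero]⟩⟩

theorem ot (d : Dg a) {L : Submodule F X} (hL : ∀ z ∈ L, pr (j + 1) z ∈ L) (h : x ∈ Ot a D L) :
    pr j x ∈ Ot a D L := ⟨cl d h.1, fun z m => by
  convert h.2 _ (hL z m) using 1
  funext g k
  simp only [cu, pr_apply, ← pw_mul d, wp_pw]⟩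

theorem lc (d : Dg a) {l : ℕ} (h : x ∈ Lc a pl Q l) : pr j x ∈ Lc a pl Q l := by
  unfold Lc at h ⊢
  split_ifs at h ⊢
  exacts [⟨cl d h.1, vs d h.2⟩, ur d h]

theorem sb (d : Dg a) (h : x ∈ Sb a pl S Q) : pr j x ∈ Sb a pl S Q :=
  ⟨zg d h.1, (Submodule.mem_iInf _).2 fun l => (Submodule.mem_iInf _).2 fun m =>
    lc d ((Submodule.mem_iInf _).1 ((Submodule.mem_iInf _).1 h.2 l) m)⟩

theorem st (d : Dg a) (h : x ∈ St a pl S Q) : pr j x ∈ St a pl S Q := ⟨sb d h.1, ur d h.2⟩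

theorem rl (d : Dg a) (h : x ∈ Rl a pl S Q) : pr j x ∈ Rl a pl S Q :=
  ⟨sb d h.1, ot d (fun _ => ur d) h.2⟩

/-- coboundaries are unramified -/
theorem bl_ur (r : R0 a) (h : x ∈ Bl a ⊤) : x ∈ Ur a P := by
  obtain ⟨v, e⟩ := h
  obtain ⟨U, hU, le⟩ := P022K.G2.ex_lv' r.opn
  refine ⟨⟨fun g _ k _ => ?_, U, hU, fun w _ m => ?_⟩, v, fun g _ => e g trivial⟩
  · rw [e g trivial, e k trivial, e _ trivial, d0_apply, d0_apply, d0_apply]
    simp only [mulVecLin_apply, map_mul, mulVec_sub, mulVec_mulVec]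
    abel
  · rw [e w trivial, d0_apply, mulVecLin_apply, show a w = 1 from le m, one_mulVec, sub_self]

theorem ur_congr (e : ∀ g ∈ dec P, a' g = a g) (h : x ∈ Ur a P) : x ∈ Ur a' P :=
  let ⟨v, f⟩ := h.2
  ⟨⟨fun g m k n => by rw [e g m]; exact h.1.1 g m k n, h.1.2⟩, v, fun g m => by
    rw [f g m, d0_apply, d0_apply, mulVecLin_apply, mulVecLin_apply,
      e g (P022D.W.inP_le_dec m)]⟩

/-- one half -/
theorem half (r' : R0 a') (d : Dg a) (d' : Dg a') (n : j ≠ j')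
    (e : ∀ g ∈ dec (pl.P pp), a g = a' g) (k : Dd a pl S Q j) (k' : Dd a' pl S Q j')
    (hx : x ∈ Rl a pl S Q) (hy : y ∈ Rl a' pl S Q) (u : x + y ∈ Ur a (pl.P pp)) : x ∈ Bl a ⊤ := by
  rw [← pr_add n x]
  refine add_mem (k.2 ⟨rl d hx, pr_cm j x⟩) (k.1 ⟨sb d hx.1, ?_⟩)
  have := sub_mem (ur (j := j') d u) (ur_congr e (bl_ur r' (k'.2 ⟨rl d' hy, pr_cm j' y⟩)))
  rwa [map_add, add_sub_cancel_right] at this

end Ka

open Ka in
/-- **row KLA** -/
theorem kla : KLA := fun a a' pl S Q j j' r r' d d' n _ e k k' x hx y hy u =>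
  ⟨half r'.toR0 d d' n (fun g m => (e g m).symm) k k' hx hy u,
    half r.toR0 d' d n.symm e k' k hy hx (add_comm x y ▸ ur_congr e u)⟩

end Vale.Agent.P014Y.Rk
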