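import Vale.Agent.P014Y.Rk.Tw0
import Vale.Agent.P014Y.Mu.Tw4
import Vale.Agent.P022K.CH.Mink

/-! # P014Y, block RK: three classes of rank one do not vanish at one element (helper55) -/

set_option autoImplicit false
set_option linter.all false

noncomputable section

namespace Vale.Agent.P014Y.Rk.Ls

open NumberField Matrix
open Vale.Agent.P022 (Qb GQ GK)
open Vale.Agent.P027M.S (Inert)
open Vale.Agent.P022E.GW (Ov Fb)
open Vale.Agent.P014U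
open P004K P004R
open P004F.Pt (fx_mul fx_inv fx_pow fx_cj)
open P014Y.F (Crv Fld)
open P014Y.F.Pt (N1 fx_n1 fx_cm fx_of)
open Mu

section

variable {k : Type} [Field k] {θ f : GQ → k} {g h u : GQ}

/-- a cocycle of a character -/
structure Cz (θ f : GQ → k) : Prop where
  one : θ 1 = 1
  mul : ∀ g h, θ (g * h) = θ g * θ h
  co : ∀ g h, f (g * h) = f g + θ g * f h

namespace Cz

variable (z : Cz θ f)
include z

theorem f1 : f 1 = 0 := by simpa [z.one] using z.co 1 1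

theorem iv (g : GQ) : θ g * θ g⁻¹ = 1 := by rw [← z.mul, mul_inv_cancel, z.one]

theorem tcj (e : θ u = 1) (s : GQ) : θ (s * u * s⁻¹) = 1 := by
  rw [z.mul, z.mul, e, mul_one, z.iv]

theorem cj (e : θ u = 1) (s : GQ) : f (s * u * s⁻¹) = θ s * f u := by
  have := z.co (s * u * s⁻¹) s
  rw [inv_mul_cancel_right, z.co, z.tcj e, one_mul] at this
  linear_combination -this

theorem pl (e : θ u = 1) (s : GQ) : f (u * (s * u * s⁻¹)) = (1 + θ s) * f u := by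
  rw [z.co, z.cj e, e]; ring

theorem mi (e : θ u = 1) (s : GQ) : f ((s * u * s⁻¹)⁻¹ * u) = (1 - θ s) * f u := by
  have := z.co (s * u * s⁻¹) ((s * u * s⁻¹)⁻¹ * u)
  rw [mul_inv_cancel_left, z.tcj e, z.cj e, one_mul] at this
  linear_combination -this

theorem pw (e : θ u = 1) (n : ℕ) : θ (u ^ n) = 1 ∧ f (u ^ n) = n * f u := by
  induction n with
  | zero => simp [z.one, z.f1]
  | succ n ih => rw [pow_succ, z.mul, z.co, ih.1, ih.2, e]; exact ⟨one_mul _, by push_cast; ring⟩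

theorem cm (g h : GQ) : θ (g * h * g⁻¹ * h⁻¹) = 1 := by
  rw [z.mul, z.mul, z.mul]
  linear_combination (θ h * θ h⁻¹) * z.iv g + z.iv h

theorem sah {c : GQ} (two : (2 : k) ≠ 0) (e : θ c = -1) (n : ¬ ∃ v, ∀ g, f g = θ g * v - v) :
    ∃ g, f (g * c * g⁻¹ * c⁻¹) ≠ 0 := by
  by_contra! q
  refine n ⟨-f c / 2, fun g => ?_⟩
  have := z.co (g * c * g⁻¹ * c⁻¹) (c * g)
  rw [q, z.cm, show g * c * g⁻¹ * c⁻¹ * (c * g) = g * c by group, z.co, z.co, e] at this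
  field_simp
  linear_combination this

theorem cm0 (t : ∀ g, θ g = 1) (g h : GQ) : f (g * h * g⁻¹ * h⁻¹) = 0 := by
  have := z.co (g * h * g⁻¹ * h⁻¹) h
  rw [inv_mul_cancel_right, z.cj (t h), t, t] at this
  linear_combination -this

theorem st (e : θ h = 1) (n : f u ≠ 0) : ∃ v, (v = 1 ∨ v = u) ∧ f (h * v) ≠ 0 := by
  by_cases q : f h = 0
  · exact ⟨u, .inr rfl, by rwa [z.co, q, e, one_mul, zero_add]⟩
  · exact ⟨1, .inl rfl, by rwa [mul_one]⟩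

theorem kp (n : f u = 0) {v : GQ} (m : v = 1 ∨ v = u) (h : GQ) : f (h * v) = f h := by
  rcases m with rfl | rfl
  · rw [mul_one]
  · rw [z.co, n, mul_zero, add_zero]

end Cz

end

variable {K : Type} [Field K] [NumberField K] {j : K →+* Qb} {g : GQ}

/-- complex conjugation and the roots of the elements of norm one -/
theorem fx_c {N : ℕ} (N0 : N ≠ 0) {c : GQ} (hg : g ∈ GK j) (hc : c ∉ GK j) (cc : P022.IsConj c)
    (f : Fx {1} N g) : Fx (N1 j) N ((c * g * c⁻¹)⁻¹ * g) := fun y ⟨u0, u1, u2⟩ => by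
  have y0 : y ≠ 0 := fun k => u0 (by rw [k, zero_pow N0])
  have g0 : g y ≠ 0 := (map_ne_zero g).2 y0
  have e0 : (g y / y) ^ N = 1 := by rw [div_pow, ← map_pow, u1 g hg, div_self u0]
  have e1 := f (c⁻¹ y * y) (by
    rw [mul_pow, ← map_pow, u2 _ fun m => hc (inv_mem_iff.1 m), inv_mul_cancel₀ u0]; rfl)
  have e2 : g (c⁻¹ y) = c⁻¹ y * (g y / y)⁻¹ := by
    rw [map_mul] at e1
    field_simp
    exact e1
  have e3 : (c * g * c⁻¹) y = g y := by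
    rw [AlgEquiv.mul_apply, AlgEquiv.mul_apply, e2, map_mul, map_inv₀,
      P004F.Pt.cj_root cc N0 e0, inv_inv, ← AlgEquiv.mul_apply, mul_inv_cancel, AlgEquiv.one_apply,
      mul_div_cancel₀ _ y0]
  rw [AlgEquiv.mul_apply, ← e3, ← AlgEquiv.mul_apply, inv_mul_cancel, AlgEquiv.one_apply]

variable [Pp]

/-- a character of order `pp` which is unramified at `pp` -/
theorem ex_x {θ f : GQ → F} (z : Cz θ f) (t : ∀ g, θ g = 1) {U : Subgroup GQ}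
    (hU : IsOpen (U : Set GQ)) (e : ∀ w ∈ U, f w = 0) {P : Ideal (𝓞 Qb)} (o : Ov pp P)
    (ur : ∀ g, Inert P g → f g = 0) (n : ∃ g, f g ≠ 0) (N : ℕ) :
    ∃ g, Fx {1} (pp ^ N) g ∧ f g ≠ 0 := by
  by_contra! q
  obtain ⟨g, n⟩ := n
  let φ : GQ →* Multiplicative F := MonoidHom.mk' (fun g => Multiplicative.ofAdd (f g))
    fun g h => by rw [z.co, t, one_mul, ofAdd_add]
  refine n (show g ∈ φ.ker from P022K.CH.mink_top φ.ker
    (Subgroup.isOpen_mono (H₁ := U) (fun w m => e w m) hU) (fun l P' o' s i => ?_) ▸ trivial)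
  by_cases h : l = pp
  · subst h
    obtain ⟨x, k, -⟩ := P004S.ex_conj o o'
    have := z.cj (t (x⁻¹ * s * x)) x
    rw [ur _ (k s i), mul_zero, show x * (x⁻¹ * s * x) * x⁻¹ = s by group] at this
    exact this
  · exact q s (F.Pt.inert_mu o' h i N)

variable {e : Crv} (b : Fld e)

/-- **three classes**: of the characters `1`, `ω`, `ε` -/
theorem three {α β γ x y z : GQ → F} (zx : Cz α x) (zy : Cz β y) (zz : Cz γ z) (t : ∀ g, α g = 1)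
    (tβ : ∀ g, Fx {1} pp g → β g = 1) (tγ : ∀ g ∈ b.Γ, γ g = 1) (tγ' : ∀ g ∉ b.Γ, γ g = -1)
    (cβ : β b.c = -1) (cΓ : b.c ∉ b.Γ) {n : ℕ} (nx : ∃ g, Fx {1} (pp ^ (n + 1)) g ∧ x g ≠ 0)
    (ny : ¬ ∃ v, ∀ g, y g = β g * v - v) (nz : ¬ ∃ v, ∀ g, z g = γ g * v - v) {h : GQ}
    (hΓ : h ∈ b.Γ) (hf : Fx {1} (pp ^ (n + 1)) h) : ∃ u ∈ b.Γ, Fx (N1 b.j) (pp ^ (n + 1)) u ∧
      x (h * u) ≠ 0 ∧ y (h * u) ≠ 0 ∧ z (h * u) ≠ 0 := by
  have two : (2 : F) ≠ 0 := fun k => pp_ne_two ((Nat.prime_dvd_prime_iff_eq pp_prime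
    Nat.prime_two).1 ((ZMod.natCast_eq_zero_iff 2 pp).1 (by exact_mod_cast k)))
  have tw : (1 + 1 : F) ≠ 0 := one_add_one_eq_two (R := F) ▸ two
  have tw' : (1 - -1 : F) ≠ 0 := sub_neg_eq_add (1 : F) 1 ▸ tw
  have n0 := pow_ne_zero (n + 1) pp_ne
  have dn {g} (f : Fx {1} (pp ^ (n + 1)) g) : β g = 1 := tβ g fun y hy => f y (by
    rw [pow_succ', pow_mul, Set.mem_singleton_iff.1 hy, one_pow]; rfl)
  obtain ⟨l, P, τ, o, d, i, τΓ⟩ := F.Pt.ex_t b.kd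
  have τf := F.Pt.inert_mu o (e.ne_pp (b.out_S o.1 d)) i (n + 1)
  have cm (g h : GQ) : g * h * g⁻¹ * h⁻¹ ∈ b.Γ := by
    rw [b.kd.gk, P004S.nu_mul, P004S.nu_conj, ← P004S.nu_mul, mul_inv_cancel, P004S.nu_one]
  obtain ⟨g₁, f₁, n₁⟩ := nx
  have m₁ : g₁ * g₁ ∈ b.Γ := by rw [b.kd.gk, P004S.nu_mul, CharTwo.add_self_eq_zero]
  have x₁ : x (g₁ * g₁ * (τ * (g₁ * g₁) * τ⁻¹)) ≠ 0 := by
    rw [zx.pl (t _), zx.co, t, t, one_mul, ← two_mul (x g₁)]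
    exact mul_ne_zero tw (mul_ne_zero two n₁)
  obtain ⟨g₂, n₂⟩ := zy.sah two cβ ny
  obtain ⟨g₃, n₃⟩ := zz.sah two (tγ' _ cΓ) nz
  have m₂ := cm g₂ b.c
  have m₃ := cm g₃ b.c
  have f₂ := fx_cm n0 g₂ b.c
  have f₃ := fx_cm n0 g₃ b.c
  have x₂ := zx.cm0 t g₂ b.c
  have x₃ := zx.cm0 t g₃ b.c
  generalize g₂ * b.c * g₂⁻¹ * b.c⁻¹ = g₂ at *
  generalize g₃ * b.c * g₃⁻¹ * b.c⁻¹ = g₃ at *
  have m₄ := mul_mem (inv_mem (b.Γ_conj m₃ τ)) m₃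
  have f₄ := fx_mul (fx_inv (fx_cj f₃ τ)) f₃
  have x₄ := zx.mi (t g₃) τ
  have y₄ := zy.mi (dn f₃) τ
  have z₄ := zz.mi (tγ _ m₃) τ
  rw [x₃, mul_zero] at x₄
  rw [dn τf, sub_self, zero_mul] at y₄
  rw [tγ' _ τΓ] at z₄
  generalize (τ * g₃ * τ⁻¹)⁻¹ * g₃ = g₄ at *
  have one : Fx (N1 b.j) (pp ^ (n + 1)) 1 := fun _ _ => rfl
  obtain ⟨u, hu, xu⟩ := zx.st (t h) x₁
  have U : u ∈ b.Γ ∧ Fx (N1 b.j) (pp ^ (n + 1)) u := hu.elim (· ▸ ⟨one_mem _, one⟩)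
    (· ▸ ⟨mul_mem m₁ (b.Γ_conj m₁ τ), fx_n1 n0 m₁ τΓ (fx_mul f₁ f₁) τf⟩)
  obtain ⟨v, hv, yv⟩ := zy.st (u := g₂ * (τ * g₂ * τ⁻¹)) (dn (fx_mul hf (fx_of U.2)))
    (by rw [zy.pl (dn f₂), dn τf]; exact mul_ne_zero tw n₂)
  have V : v ∈ b.Γ ∧ Fx (N1 b.j) (pp ^ (n + 1)) v := hv.elim (· ▸ ⟨one_mem _, one⟩)
    (· ▸ ⟨mul_mem m₂ (b.Γ_conj m₂ τ), fx_n1 n0 m₂ τΓ f₂ τf⟩)
  obtain ⟨w, hw, zw⟩ := zz.st (u := (b.c * g₄ * b.c⁻¹)⁻¹ * g₄)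
    (tγ _ (mul_mem (mul_mem hΓ U.1) V.1))
    (by rw [zz.mi (tγ _ m₄), tγ' _ cΓ, z₄]; exact mul_ne_zero tw' (mul_ne_zero tw' n₃))
  have W : w ∈ b.Γ ∧ Fx (N1 b.j) (pp ^ (n + 1)) w := hw.elim (· ▸ ⟨one_mem _, one⟩)
    (· ▸ ⟨mul_mem (inv_mem (b.Γ_conj m₄ _)) m₄, fx_c n0 m₄ cΓ b.cc f₄⟩)
  refine ⟨u * v * w, mul_mem (mul_mem U.1 V.1) W.1, fx_mul (fx_mul U.2 V.2) W.2, ?_⟩
  rw [← mul_assoc, ← mul_assoc]
  exact ⟨by rwa [zx.kp (by rw [zx.mi (t _), x₄, mul_zero]) hw,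
    zx.kp (by rw [zx.pl (t _), x₂, mul_zero]) hv],
    by rwa [zy.kp (by rw [zy.mi (dn f₄), y₄, mul_zero]) hw], zw⟩

end Vale.Agent.P014Y.Rk.Ls
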