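import Vale.Agent.P014Y.Rk.St
import Vale.Agent.P014Y.Rk.Ls0

/-! # P014Y, block RK, row LST: the last prime (helper55) -/

set_option autoImplicit false
set_option linter.all false

noncomputable section

namespace Vale.Agent.P014Y.Rk

open NumberField Matrix
open Vale.Agent.P022 (Qb GQ GK)
open Vale.Agent.P027M.S (Inert)
open Vale.Agent.P022D.W (dec inP_le_dec)
open Vale.Agent.P022E.GW (Ov Fb)
open Vale.Agent.P014U
open L2 (W M2)
open X4S (Pl)
open P004K P004R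
open P004F.Pt (Dh fx_mul fx_pow)
open P014Y.F (Crv Fld)
open P014Y.F.Pt (N1 fx_of)
open Mu

namespace Ls

variable [Pp] {a : GQ →* M2} {S T : Finset ℕ} {x : X} {j : Fin 2}

theorem dmv (d : Dg a) (g : GQ) (v : W) (j : Fin 2) : (a g *ᵥ v) j = a g j j * v j := by
  rw [mulVec, dotProduct, Finset.sum_eq_single j (fun i _ n => by rw [d g j i n.symm, zero_mul])
    (by simp)]

theorem cz (d : Dg a) (h : x ∈ Zg a T) (j : Fin 2) : Cz (fun g => a g j j) fun g => x g j :=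
  ⟨by simp, fun g h => by
    rw [map_mul, mul_apply, Finset.sum_eq_single j (fun i _ n => by rw [d g j i n.symm, zero_mul])
      (by simp)], fun g k => by
    rw [h.1 g trivial k trivial]
    exact congrArg (x g j + ·) (dmv d g _ j)⟩

theorem nb (d : Dg a) (c : x ∈ Cm j) (n : x ∉ Bl a ⊤) :
    ¬ ∃ v, ∀ g, x g j = a g j j * v - v := fun ⟨v, h⟩ => n ⟨Pi.single j v, fun g _ =>
  funext fun i => by
    show x g i = (a g *ᵥ Pi.single j v - Pi.single j v : W) i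
    rw [Pi.sub_apply, dmv d]
    by_cases e : i = j
    · subst e; simp [h]
    · rw [c g i e, Pi.single_eq_of_ne e, mul_zero, sub_self]⟩

theorem om_eq (r : R0 a) (d : Dg a) (t : Tv a j) (g : GQ) :
    a g (j + 1) (j + 1) = P022K.G2.om pp F g := by
  have := t g
  rw [← r.det, L2.dt, det_fin_two, d g 0 1 (by decide), zero_mul, sub_zero]
  fin_cases j
  · exact (one_mul _).symm.trans (congrArg (· * _) this.symm)
  · exact (mul_one _).symm.trans (congrArg (_ * ·) this.symm)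

theorem eq_one (r : R0 a) (d : Dg a) (t : Tv a j) {g : GQ} (f : Fx {1} pp g) : a g = 1 := by
  have p := t g
  have q := (om_eq r d t g).trans ((P022K.G2.om_eq_one _).2 (P022K.G2.mem_Gz'.2
    (f _ (P022K.G2.zt_prim pp).pow_eq_one)))
  have u := d g 0 1 (by decide)
  have v := d g 1 0 (by decide)
  ext i k
  fin_cases j <;> fin_cases i <;> fin_cases k <;> assumption

/-- from one Frobenius element to another one -/
theorem trf (d : Dg a) (r : Rs a S) {q : ℕ} {P : Ideal (𝓞 Qb)} (o : Ov q P) (qS : q ∉ S)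
    {s σ w : GQ} (i : Inert P s) (e : a (w * (s * σ) * w⁻¹) = 1) : a σ = 1 ∧
    (x ∈ Zg a T → q ∉ T → x (w * (s * σ) * w⁻¹) j ≠ 0 → x σ ≠ 0) := by
  have e' : a (s * σ) = 1 := by simpa [mul_assoc] using a.normal_ker.conj_mem _ e w⁻¹
  refine ⟨by rwa [map_mul, r.unr s ⟨q, qS, P, o, i⟩, one_mul] at e', fun h qT n k => n ?_⟩
  have z := cz d h j
  refine (z.cj (by simp [e']) w).trans ?_
  rw [z.co, k, Lo.zg_in h ⟨q, qT, P, o, i⟩]
  simp

end Ls

open Ls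

/-- **row LST** -/
theorem lst (r1 : RC1) (r2 : RC2) (r3 : RC3) (hS : RSA) (hR : RSE) : LST := fun e b a j ra tv => by
  classical
  obtain ⟨m, κ, κΓ, κ1, κf, κq⟩ := Tv.ex_gq b
  obtain ⟨r, r', d', -⟩ := hS e b a ra
  obtain ⟨-, -, mem, out, -⟩ := (hR e).2.2 b
  refine ⟨Mu.Tv.Ev b, 1, 2 * m + 1, fun k Q pl x y z hQ th => ?_⟩
  have zx := cz ra.dg th.tx.1.1.1 j
  have zy := cz ra.dg th.ty.1.1.1 (j + 1)
  have zz := cz d' th.tz.1.1.1 j
  obtain ⟨Ux, lx, ex⟩ := th.tx.1.1.1.2.2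
  obtain ⟨Uy, ly, ey⟩ := th.ty.1.1.1.2.2
  obtain ⟨Uz, lz, ez⟩ := th.tz.1.1.1.2.2
  have a1 {g} := eq_one r.toR0 ra.dg tv (g := g)
  have a2 {g} (m : g ∈ b.Γ) : tw (-b.δ') a g = a g := tw_eq ((mem g).1 m)
  have dn {g} (f : Fx {1} (pp ^ (k + 1)) g) : Fx {1} pp g := fun y hy => f y (by
    rw [pow_succ', pow_mul, Set.mem_singleton_iff.1 hy, one_pow]; rfl)
  have cβ : a b.c (j + 1) (j + 1) = -1 := by
    have k : ∀ x y : ZMod 3, x * y = 1 → x = 1 ∨ x = -1 := by decide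
    refine (k _ _ (zy.iv b.c)).resolve_left fun d => ?_
    have z := P022K.G2.zt_prim 3
    have := (P022K.G2.mem_Gz'.1 ((P022K.G2.om_eq_one _).1
      ((om_eq r.toR0 ra.dg tv _).symm.trans d))).symm.trans (P004F.Pt.cj_root b.cc three_ne_zero
      z.pow_eq_one)
    exact z.pow_ne_one_of_pos_of_lt two_ne_zero (by norm_num : 2 < 3)
      (by rw [pow_two]; exact (mul_eq_one_iff_eq_inv₀ (z.ne_zero three_ne_zero)).2 this)
  have nx := ex_x zx tv lx.opn (fun w m => congrFun (ex w trivial m) j) (pl.ov pp pp_prime)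
    (fun g i => by
      obtain ⟨v, h⟩ := (th.tx.1.2 tv).2
      refine (congrFun (h g i) j).trans ?_
      show (a g *ᵥ v - v) j = 0
      rw [Pi.sub_apply, dmv ra.dg, tv, one_mul, sub_self])
    (by
      by_contra! q
      exact nb ra.dg th.tx.1.1.2 th.tx.2 ⟨0, fun g => by simp [q g]⟩) (k + 1)
  obtain ⟨q, P₀, ψ, χ, qS, qQ, gt, o, f, ⟨⟨g1, g2⟩, ⟨g3, g4, g5⟩, g6⟩, L, -, hv⟩ :=
    Mu.Tv.twl b r1 r2 r3 k Q pl.P pl.σ (fun _ => 0)
    (fun q m => ⟨hQ q m, pl.ov q (hQ q m).pr, pl.fb q (hQ q m).pr⟩)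
    (U := (a.ker ⊓ (tw (-b.δ') a).ker) ⊓ (Ux ⊓ (Uy ⊓ Uz)) ⊓ e.rep.Kn (m + 1))
    (((r.opn.inter r'.opn).inter (lx.opn.inter (ly.opn.inter lz.opn))).inter (e.rep.Kn_open _))
    (G := fun ψ => (a ψ = 1 ∧ tw (-b.δ') a ψ = 1) ∧
      (x ψ j ≠ 0 ∧ y ψ (j + 1) ≠ 0 ∧ z ψ j ≠ 0) ∧ X4F.En.Gq e.rp m ψ)
    (fun g u ⟨⟨⟨u1, u2⟩, u3, u4, u5⟩, u6⟩ ⟨⟨g1, g2⟩, ⟨g3, g4, g5⟩, g6⟩ =>
      ⟨⟨by rw [map_mul, g1, one_mul]; exact u1, by rw [map_mul, g2, one_mul]; exact u2⟩,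
        ⟨by rw [zx.kp (congrFun (ex u trivial u3) j) (.inr rfl)]; exact g3,
          by rw [zy.kp (congrFun (ey u trivial u4) _) (.inr rfl)]; exact g4,
          by rw [zz.kp (congrFun (ez u trivial u5) j) (.inr rfl)]; exact g5⟩, g6.mul e.rep u6⟩)
    (fun h hΓ hf => by
      obtain ⟨u, u1, u2, u3, u4, u5⟩ := three b zx zy zz tv (fun g f => by simp [a1 f])
        (fun g m => by rw [a2 m, tv]) (fun g m => by
          show ((if P004S.nu (-b.δ') g = 0 then 1 else -1 : F) • a g) j j = -1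
          rw [if_neg (mt (mem g).2 m), Matrix.smul_apply, tv, smul_eq_mul, mul_one])
        cβ out nx (nb ra.dg th.ty.1.1.2 th.ty.2) (nb d' th.tz.1.1.2 th.tz.2) hΓ hf
      obtain ⟨i, hi⟩ := κq _ (dn (fx_mul hf (fx_of u2)))
      have k1 := ra.ker κ κ1
      have k0 {θ f : GQ → F} (w : Cz θ f) (t : θ κ = 1) : f (κ ^ (2 * pp * i)) = 0 := by
        rw [(w.pw t _).2]; simp
      have m := mul_mem u1 (pow_mem κΓ (2 * pp * i))
      have f := fx_mul u2 (fx_pow (κf (k + 1)) (2 * pp * i))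
      have e1 := a1 (dn (fx_mul hf (fx_of f)))
      refine ⟨_, m, f, ⟨e1, (a2 (mul_mem hΓ m)).trans e1⟩, ?_⟩
      rw [← mul_assoc]
      exact ⟨⟨by rw [zx.kp (k0 zx (tv _)) (.inr rfl)]; exact u3,
        by rw [zy.kp (k0 zy (by simp [k1])) (.inr rfl)]; exact u4,
        by rw [zz.kp (k0 zz (by rw [a2 κΓ, tv])) (.inr rfl)]; exact u5⟩, hi⟩) (Sd b)
  have ov := pl.ov q gt.pr
  have q3 : q ≠ pp := fun c => qS (c ▸ r.pm)
  have qe : q ∉ e.S := fun c => qS (Finset.mem_union_left _ (List.mem_toFinset.2 c))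
  have qT : q ∉ Sd b ∪ Q := fun c => (Finset.mem_union.1 c).elim qS qQ
  obtain ⟨w, s, i, rfl⟩ := Wr.fb_cj ov (pl.fb q gt.pr) ⟨P₀, o.2.1, o.2.2, f⟩
  have c0 := zero_lt_one.trans L.one
  have D : Dh b.j (∏ l ∈ insert q Q, l) fun g => ((χ g).val : F) := ⟨fun g p h n => by
    rw [← Nat.cast_add, ZMod.natCast_eq_natCast_iff]
    exact (L.ad.add g p h n).of_dvd (dvd_pow_self _ k.succ_ne_zero), fun g p =>
      (ZMod.natCast_eq_zero_iff _ _).2 ((dvd_pow_self _ k.succ_ne_zero).trans (L.ad.ker g p))⟩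
  have iΓ {g} (i : Inert (pl.P q) g) : g ∈ b.Γ := gt.sq _ ov (inP_le_dec i)
  have σΓ l (p : l.Prime) (s : Sq b.Γ l) : pl.σ l ∈ b.Γ :=
    s _ (pl.ov l p) (P022D.W.phi_mem p (pl.ov l p).2.1 (pl.fb l p))
  obtain ⟨V, lV, hV⟩ := P022K.G2.ex_lv' (r1 _ b.j b.iq _ c0).2.1
  obtain ⟨n, hn⟩ := Lv.tame ov q3 (fun g h p s => D.add g (iΓ p) h (iΓ s)) lV
    fun w _ m => D.ker w (hV m)
  have tn := hn _ (pl.gn q gt.pr q3).1
  rw [(pl.gn q gt.pr q3).2, one_smul] at tn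
  have n0 : n ≠ 0 := fun c => by
    obtain ⟨t, -, t1, t2⟩ := L.ram q _ ov (Finset.dvd_prod_of_mem _ (Finset.mem_insert_self _ _))
    have := hn t t1
    rw [c, smul_zero, t2, ZMod.val_one'' (by have := Nat.one_le_two_pow (n := 0); omega),
      Nat.cast_one] at this
    exact one_ne_zero this
  have τi := (P022.H443.inP (pl.P q)).pow_mem (pl.gn q gt.pr q3).1 (-((χ (pl.σ q)).val : F) / n).val
  have fin {u} (m : u ∈ b.Γ) (z : ((χ u).val : F) = 0) g : 3 ∣ (χ (g * u * g⁻¹)).val := by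
    have := D.cj r1 b.iq c0 g m
    simp only [z, neg_zero, or_self] at this
    exact (ZMod.natCast_eq_zero_iff _ _).1 this
  refine ⟨q, qQ, ⟨⟨gt.pr, Finset.notMem_empty _, gt.md, gt.sq⟩, Fin.forall_fin_two.2
      ⟨⟨gt.pr, qS, (trf (x := x) (T := ∅) (j := j) ra.dg r ov qS i g1).1⟩,
        gt.pr, qS, (trf (x := x) (T := ∅) (j := j) d' r' ov qS i g2).1⟩,
      F.Pt.gq_nd o qe f g6 (Nat.lt_succ_self _)⟩,
    (trf ra.dg r ov qS i g1).2 th.tx.1.1.1 qT g3, (trf ra.dg r ov qS i g1).2 th.ty.1.1.1 qT g4,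
    (trf d' r' ov qS i g2).2 th.tz.1.1.1 qT g5,
    ⟨pl.P, fun l => if l = q then pl.σ q * pl.τ q ^ (-((χ (pl.σ q)).val : F) / n).val else pl.σ l,
      pl.τ, pl.ov, fun l p => ?_, pl.gn⟩,
    ⟨rfl, rfl, fun l m => if_neg (mt Finset.mem_singleton.2 m), fun l m => by
      obtain rfl := Finset.mem_singleton.1 m
      exact ⟨_, if_pos rfl⟩⟩, _, χ, L,
    Nat.primeFactors_prod fun l m => (Finset.mem_insert.1 m).elim (· ▸ gt.pr) fun m => (hQ l m).pr,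
    fun l m => ?_⟩
  · split_ifs with c
    · subst c
      exact Lv.fb_mul ov (pl.fb _ p) τi
    · exact pl.fb l p
  · show ∀ g, 3 ∣ (χ (g * (if l = q then _ else _) * g⁻¹)).val
    split_ifs with c
    · refine fin (mul_mem (σΓ q gt.pr gt.sq) (iΓ τi)) ?_
      refine (D.add _ (σΓ q gt.pr gt.sq) _ (iΓ τi)).trans ?_
      rw [D.pow (iΓ (pl.gn q gt.pr q3).1), tn, nsmul_eq_mul, ZMod.natCast_zmod_val,
        div_mul_cancel₀ _ n0, add_neg_cancel]
    · have m := (Finset.mem_insert.1 m).resolve_left c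
      exact fin (σΓ l (hQ l m).pr (hQ l m).sq) (by rw [hv l m, ZMod.val_zero, Nat.cast_zero])

end Vale.Agent.P014Y.Rk
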