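import Vale.Agent.P014Y.Rk.St
import Vale.Agent.P014Y.Mu.Rse
import Vale.Agent.P022K.G2.Unr

/-! # P014Y, block RK: the split plane and its twist (helper14) -/

set_option autoImplicit false
set_option linter.all false

noncomputable section

namespace Vale.Agent.P014Y.Rk

open NumberField Matrix Module
open scoped Classical
open Vale.Agent.P022 (Qb GQ IsConj)
open Vale.Agent.P022K.G2 (om oz_cc)
open Vale.Agent.P014U
open L2 (W M2)
open P004S (nu)
open Mu

variable [Pp]

namespace Rz

variable {a : GQ →* M2} {d : ℤ} {g c : GQ}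

theorem tw_out (h : nu d g ≠ 0) : tw d a g = -a g := by
  show (if nu d g = 0 then 1 else -1 : F) • a g = _
  rw [if_neg h, neg_smul, one_smul]

theorem dg_tw (h : Dg a) : Dg (tw d a) := fun g i j n => by
  show (if nu d g = 0 then 1 else -1 : F) * a g i j = 0
  rw [h g i j n, mul_zero]

/-- the action in coordinates -/
theorem mv (h : Dg a) (g : GQ) (v : W) (j : Fin 2) : (a g *ᵥ v) j = a g j j * v j := by
  rw [mulVec, dotProduct, Finset.sum_eq_single j (fun i _ n => by rw [h g j i n.symm, zero_mul])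
    fun n => absurd (Finset.mem_univ j) n]

/-- the product of the two characters -/
theorem pd (h : Dg a) (r : R0 a) (g : GQ) (j : Fin 2) :
    a g j j * a g (j + 1) (j + 1) = om pp F g := by
  have e : (a g).det = om pp F g := congrFun r.det g
  rw [det_fin_two, h g 0 1 (by decide), zero_mul, sub_zero] at e
  fin_cases j
  exacts [e, (mul_comm _ _).trans e]

theorem pc (h : Dg a) (r : R0 a) (k : IsConj c) (j : Fin 2) :
    a c j j * a c (j + 1) (j + 1) = -1 := by
  obtain ⟨φ, k⟩ := k
  rw [pd h r, om, oz_cc k, map_neg, map_one]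

theorem ev_tw (h : Dg a) (r : R0 a) (k : IsConj c) (n : nu d c ≠ 0) {j : Fin 2}
    (e : a c j j = 1) : Ev (tw d a) (j + 1) := ⟨c, k, by
  have := pc h r k j
  rw [e, one_mul] at this
  rw [tw_out n, Matrix.neg_apply, this, neg_neg]⟩

theorem ex_ev (h : Dg a) (r : R0 a) (k : IsConj c) (cc : c * c = 1) : ∃ j, a c j j = 1 := by
  have e := congrFun (congrFun ((map_mul a c c).symm.trans (cc ▸ map_one a)) 0) 0
  rw [mul_apply, Fin.sum_univ_two, h c 0 1 (by decide), zero_mul, add_zero, one_apply_eq] at e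
  refine (mul_self_eq_one_iff.1 e).elim (fun x => ⟨0, x⟩) fun x => ⟨1, ?_⟩
  have := pc h r k 0
  rwa [x, neg_mul, one_mul, neg_inj] at this

theorem nf_or (h : Dg a) : Nf a ⊤ ∨ ∃ j, Tv a j := by
  refine or_iff_not_imp_right.2 fun n v f => funext fun j => by_contra fun z => n ⟨j, fun g => ?_⟩
  exact mul_right_cancel₀ z (((mv h g v j).symm.trans (congrFun (f g trivial) j)).trans
    (one_mul _).symm)

theorem not_nf (h : Dg a) {j : Fin 2} (t : Tv a j) (Γ : Subgroup GQ) : ¬ Nf a Γ := fun n => by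
  have := congrFun (n (Pi.single j 1) fun g _ => funext fun i => by
    rw [mv h]
    by_cases e : i = j
    · rw [e, t g, one_mul]
    · rw [Pi.single_eq_of_ne e, mul_zero]) j
  rw [Pi.single_eq_same] at this
  exact one_ne_zero this

theorem nf_neg {D : Subgroup GQ} (m : g ∈ D) (e : a g = -1) : Nf a D := fun v f => by
  have c := f g m
  rw [e, neg_mulVec, one_mulVec] at c
  exact (smul_eq_zero.1 (show (2 : F) • v = 0 by
    rw [two_smul]; exact (congrArg (· + v) c.symm).trans (neg_add_cancel v))).resolve_left two_ne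

end Rz

open Rz

/-- **row RSA** -/
theorem rsa : RSA := fun e b a ra => by
  obtain ⟨r1, r2, mem, out, cc, -, ⟨t, t1, t2⟩, -⟩ := (rse e).2.2 b
  have r : Rs a (Sd b) := ⟨ra.rs.toR0, r1.pm, r1.pr, fun g m => ra.ker g (r1.unr g m)⟩
  have n := fun h => out ((mem _).2 h)
  refine ⟨r, ⟨Re.r0_tw _ r.toR0, r1.pm, r1.pr, fun g m => Re.tw_of (by_contra fun z => ?_)
    (r.unr g m)⟩, dg_tw ra.dg, nf_neg (Subgroup.mem_top t) (by
      rw [tw_out fun h => t1 ((mem _).2 h), ra.ker t (Re.of e t2)]),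
    (ex_ev ra.dg r.toR0 b.cc cc).imp fun j k => ⟨⟨_, b.cc, k⟩, ev_tw ra.dg r.toR0 b.cc n k⟩,
    nf_or ra.dg, fun j k => ⟨ev_tw ra.dg r.toR0 b.cc n (k _), not_nf ra.dg k⟩⟩
  have := congrFun (congrFun ((tw_out z).symm.trans (r2.unr g m)) 0) 0
  rw [r1.unr g m, Matrix.neg_apply, one_apply_eq] at this
  exact two_ne (by linear_combination -this)

end Vale.Agent.P014Y.Rk
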