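import Vale.Agent.P014Y.Rk.St
import Vale.Agent.P014Y.Md.Tw2
import Vale.Agent.P014Y.Md.Sup

/-! # P014Y, block RK, row TWVA: the tower for a split plane -/

set_option autoImplicit false
set_option linter.all false

noncomputable section

namespace Vale.Agent.P014Y.Rk

open NumberField Matrix
open Vale.Agent.P022 (Qb GQ GK)
open Vale.Agent.P027M.S (Inert)
open Vale.Agent.P022D.W (dec)
open Vale.Agent.P022E.GW (Ov Fb)
open Vale.Agent.P014U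
open P004K P004R
open L2 (M2)
open P004F.Pt (Dh fx_mul fx_inv fx_pow)
open P014T.Dr (Hm)
open P014Y.F (Crv Fld)
open P014Y.F.Pt (N1 twr2 fx_pw)
open Tp (Lz)
open P014Y.Mu P014Y.Mu.Tv

namespace Ta

theorem fixed {K : Type} [Field K] [CharZero K] {j : K →+* Qb} {y : Qb}
    (h : ∀ g ∈ GK j, g y = y) : ∃ x, j x = y := by
  have : Algebra.IsAlgebraic ℚ Qb := AlgebraicClosure.isAlgebraic ℚ
  have : IsAlgClosure ℚ Qb := ⟨inferInstance, inferInstance⟩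
  have : IsGalois ℚ Qb := IsAlgClosure.isGalois ℚ Qb
  have k : y ∈ j.toRatAlgHom.fieldRange := by
    rw [← InfiniteGalois.fixedField_fixingSubgroup j.toRatAlgHom.fieldRange,
      IntermediateField.mem_fixedField_iff]
    exact fun g hg => h g fun x => (IntermediateField.mem_fixingSubgroup_iff _ _).1 hg _ ⟨x, rfl⟩
  exact k

variable {e : Crv} (b : Fld e) {a : GQ →* M2}

/-- **the tower with prescribed values**, any open condition at the two other primes -/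
theorem twg (r1 : RC1) (r2 : RC2) (r3 : RC3) {U : Subgroup GQ} (hU : IsOpen (U : Set GQ))
    {G : GQ → Prop} (stb : ∀ g, ∀ u ∈ U, G g → G (g * u)) (k : ℕ)
    (ex : ∀ h ∈ b.Γ, Fx {1} (pp ^ (k + 1)) h →
      ∃ x ∈ b.Γ, Fx (N1 b.j) (pp ^ (k + 1)) x ∧ G (h * x)) (Q : Finset ℕ) (σ : ℕ → GQ)
    (hQ : ∀ q ∈ Q, Gt b (k + 2) (e.S.toFinset ∪ b.δ'.primeFactors ∪ Finset.range 18) q ∧
      Md.Fq q (σ q)) :
    ∃ (c : ℕ) (χ : GQ → ZMod (3 * 3 ^ k)), Lz b k c χ ∧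
      (∀ q ∈ Q, q ∣ c ∧ ∀ g, 3 ∣ (χ (g * σ q * g⁻¹)).val) ∧ c.primeFactors.card ≤ Q.card + 2 ∧
      ∀ q : ℕ, q.Prime → q ∣ c → Gt b (k + 1) ∅ q ∧
        (q ∈ Q ∨ q ∉ e.S ∧ ∃ P ψ, Ov q P ∧ Fb q P ψ ∧ G ψ) := by
  classical
  have ex' (q : ℕ) : ∃ P, q ∈ Q → Ov q P ∧ Fb q P (σ q) := by
    by_cases m : q ∈ Q
    · exact (hQ q m).2.imp fun _ a _ => a
    · exact ⟨⊥, fun a => absurd a m⟩
  choose P hP using ex'
  have out (q) (m : q ∈ Q) : q ∉ e.S ∧ ¬ q ∣ b.δ' ∧ 17 < q := by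
    have := (hQ q m).1.nE
    simp only [Finset.mem_union, not_or, List.mem_toFinset, Finset.mem_range] at this
    exact ⟨this.1.1, fun d => this.1.2 (Nat.mem_primeFactors.2 ⟨(hQ q m).1.pr, d, b.pos.ne'⟩),
      by omega⟩
  have md (q) (m : q ∈ Q) : q ≡ 1 [MOD 3 ^ (k + 1)] :=
    (hQ q m).1.md.of_dvd (pow_dvd_pow 3 (k + 1).le_succ)
  obtain ⟨R, χ, sub, cd, hR, D, rm, un⟩ : ∃ (R : Finset ℕ) (χ : GQ → ZMod (3 * 3 ^ k)), Q ⊆ R ∧
      R.card = Q.card + 2 ∧ (∀ q ∈ R, q ∉ Q → q ∉ Finset.range 18 ∧ q ∉ e.S.toFinset ∧ ¬ q ∣ b.δ' ∧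
        q % pp ^ (k + 1) = 1 ∧ ∃ P ψ, Ov q P ∧ ψ ∈ b.Γ ∧ Fb q P ψ ∧ G ψ) ∧
      Dh b.j (∏ l ∈ R, l) χ ∧ (∀ l ∈ R, ∀ P', Ov l P' → ∃ τ ∈ b.Γ, Inert P' τ ∧ χ τ = 1) ∧
      ∀ p ∈ e.S.toFinset ∪ Q, χ (if p ∈ e.S then b.φ p else σ p) = if p ∈ e.S then 1 else 0 := by
    rw [← pow_succ' 3 k]
    exact twr2 (n := k) r1 r2 r3 b.kd (P := fun p => if p ∈ e.S then e.P p else P p)
      (fun p m => by
        split_ifs with a
        · exact ⟨e.ov p a, b.le p a, b.ch.frb p a⟩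
        · have m := (Finset.mem_union.1 m).resolve_left (mt List.mem_toFinset.1 a)
          exact ⟨(hP p m).1, (hQ p m).1.sq _ (hP p m).1, (hP p m).2⟩)
      (List.mem_toFinset.2 e.pm) _
      (fun l m => ⟨(hQ l m).1.pr, mt List.mem_toFinset.1 (out l m).1,
        Eq.trans (md l m) (Nat.mod_eq_of_lt (F.Pt.one_lt_pow' k)), (hQ l m).1.sq⟩) hU stb ex _
  have hT : ∀ l ∈ R, (l.Prime ∧ l ∉ e.S ∧ ¬ l ∣ b.δ' ∧ 17 < l ∧ Sq b.Γ l) ∧
      l ≡ 1 [MOD 3 ^ (k + 1)] ∧ (l ∈ Q ∨ l ∉ e.S ∧ ∃ P ψ, Ov l P ∧ Fb l P ψ ∧ G ψ) := fun l a => by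
    by_cases m : l ∈ Q
    · exact ⟨⟨(hQ l m).1.pr, (out l m).1, (out l m).2.1, (out l m).2.2, (hQ l m).1.sq⟩, md l m, .inl m⟩
    · obtain ⟨a1, a2, a3, a4, P', ψ, o, m', f, t⟩ := hR l a m
      have a2 := mt List.mem_toFinset.2 a2
      exact ⟨⟨o.1, a2, a3, by rw [Finset.mem_range] at a1; omega,
        fun P' o' => Wr.dec_gk b.kd o (e.ne_two a2) a3 f m' o'⟩,
        a4.trans (Nat.mod_eq_of_lt (F.Pt.one_lt_pow' k)).symm, .inr ⟨a2, _, _, o, f, t⟩⟩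
  have L := lz b r1 r2 (Finset.card_pos.1 (by omega)) (fun l a => (hT l a).1) D rm fun p m => by
    have := un p (Finset.mem_union_left _ (List.mem_toFinset.2 m))
    rw [if_pos m, if_pos m] at this
    exact this ▸ isUnit_one
  have pf := Nat.primeFactors_prod fun l a => (hT l a).1.1
  refine ⟨_, χ, L, fun l a => ⟨Finset.dvd_prod_of_mem _ (sub a), fun g => ?_⟩, pf.symm ▸ cd.le,
    fun l hl d => ?_⟩
  · have z := un l (Finset.mem_union_right _ a)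
    rw [if_neg (out l a).1, if_neg (out l a).1] at z
    obtain ⟨o, f⟩ := hP l a
    have := (L.ad.dh (i := 1) (by omega)).cj r1 b.iq (zero_lt_one.trans L.one) g
      ((hQ l a).1.sq _ o (P022D.W.phi_mem o.1 o.2.1 f))
    simp only [z, ZMod.val_zero, Nat.cast_zero, neg_zero, or_self,
      ZMod.natCast_eq_zero_iff, pow_one] at this
    exact this
  · obtain ⟨a1, a2, a3⟩ := hT l (pf ▸ Nat.mem_primeFactors.2 ⟨hl, d, L.sq.ne_zero⟩)
    exact ⟨⟨hl, Finset.notMem_empty _, a2, a1.2.2.2.2⟩, a3⟩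

theorem d1 : ∀ A B : Matrix (Fin 2) (Fin 2) (ZMod 3), A 0 1 = 0 → A 1 0 = 0 → A * B = 1 →
    A * A = 1 ∧ (A 0 0 = 1 ∨ A 0 0 = -1) ∧ (A 1 1 = 1 ∨ A 1 1 = -1) := by
  decide +kernel

theorem d2 : ∀ A B : Matrix (Fin 2) (Fin 2) (ZMod 3), A 0 1 = 0 ∧ A 1 0 = 0 ∧ A * A = 1 →
    B 0 1 = 0 ∧ B 1 0 = 0 ∧ B * B = 1 → A 0 0 = -1 → B 1 1 = -1 →
    A = -1 ∨ B = -1 ∨ A * B = -1 := by
  decide +kernel

theorem pm (d : Dg a) (g : GQ) : a g * a g = 1 ∧ ∀ i, a g i i = 1 ∨ a g i i = -1 :=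
  (d1 _ (a g⁻¹) (d g 0 1 (by decide)) (d g 1 0 (by decide))
    (by rw [← map_mul, mul_inv_cancel, map_one])).imp_right Fin.forall_fin_two.2

theorem neg (d : Dg a) (n : Nf a ⊤) : ∃ g, a g = -1 := by
  have k (i : Fin 2) : ∃ g, a g i i = -1 := by
    by_contra! c
    have := n (Pi.single i 1) fun g _ => by
      funext s
      rw [mulVec_single_one, col_apply]
      by_cases x : s = i
      · rw [x, Pi.single_eq_same]
        exact ((pm d g).2 i).resolve_right (c g)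
      · rw [d g s i x, Pi.single_eq_of_ne x]
    simpa using congrFun this i
  obtain ⟨g, x⟩ := k 0
  obtain ⟨h, y⟩ := k 1
  have t g : a g 0 1 = 0 ∧ a g 1 0 = 0 ∧ a g * a g = 1 :=
    ⟨d g 0 1 (by decide), d g 1 0 (by decide), (pm d g).1⟩
  rcases d2 _ _ (t g) (t h) x y with z | z | z
  exacts [⟨g, z⟩, ⟨h, z⟩, ⟨g * h, (map_mul a g h).trans z⟩]

theorem nq {S : Finset ℕ} (r : Rs a S) {q : ℕ} {P : Ideal (𝓞 Qb)} {ψ : GQ} (o : Ov q P)
    (n : q ∉ S) (f : Fb q P ψ) (h : a ψ = -1) : Bo.Nq a q := fun P' o' v k => by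
  obtain ⟨φ, f'⟩ := P022D.W.exists_phi o'.1 o'.2.1 o'.2.2
  have c := k φ (P022D.W.phi_mem o'.1 o'.2.1 f')
  obtain ⟨x, s, i, rfl⟩ := Wr.fb_cj o f ⟨P', o'.2.1, o'.2.2, f'⟩
  rw [map_mul, map_mul, map_mul, r.inert o n s i, h, one_mul, mul_neg_one, neg_mul, ← map_mul,
    mul_inv_cancel, map_one, neg_mulVec, one_mulVec] at c
  exact (smul_eq_zero.1 (show (2 : ZMod 3) • v = 0 by
    rw [two_smul]; exact (congrArg (· + v) c.symm).trans (neg_add_cancel v))).resolve_left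
      (by decide)

end Ta

open Ta in
/-- **row TWVA** -/
theorem twva (r1 : RC1) (r2 : RC2) (r3 : RC3) : TWVA := fun e b a ra nf => by
  obtain ⟨g, hg⟩ := neg ra.dg nf
  obtain ⟨x, mx, kx⟩ := b.onto g
  have ax : a x = -1 := by
    have : a (g⁻¹ * x) = 1 := ra.ker _ (by
      rw [map_mul, show rb e x = rb e g from congrArg (Matrix.map · PadicInt.toZMod) kx, ← map_mul,
        inv_mul_cancel, map_one])
    rw [← mul_inv_cancel_left g x, map_mul, this, mul_one, hg]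
  have fx : Fx {1} pp x := fun y hy => by
    obtain ⟨i, rfl⟩ := P022K.G2.pw_ex (p := pp) hy
    rw [map_pow, P022K.G2.mem_Gz'.1 ((P022K.G2.om_eq_one _).1
      ((congrFun ra.rs.det x).symm.trans (show (a x).det = 1 by rw [ax]; simp [det_neg])))]
  obtain ⟨u, u0, u2, u3⟩ := b.ex_big
  have au : a u = 1 := ra.ker u (e.tr_one.1 (u2.tr.mono (by norm_num)))
  obtain ⟨m, hm⟩ := u2.gq e.rep one_ne_zero
  refine ⟨e.S.toFinset ∪ b.δ'.primeFactors ∪ Finset.range 18, 2, 2 * m + 1, fun k Q σ hQ => ?_⟩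
  obtain ⟨c, χ, L, c1, c2, c3⟩ := twg b r1 r2 r3 (U := a.ker ⊓ e.rep.Kn (m + 1))
    (ra.rs.opn.inter (e.rep.Kn_open _)) (G := fun g => a g = -1 ∧ X4F.En.Gq e.rp m g)
    (fun g v h t => ⟨by rw [map_mul, show a v = 1 from h.1, mul_one, t.1], t.2.mul e.rep h.2⟩) k
    (fun h mh f => by
      have f1 : Fx {1} pp h := fun y hy => f y (by
        rw [pow_succ', pow_mul, Set.mem_singleton_iff.1 hy, one_pow]; rfl)
      have mk := mul_mem (inv_mem mh) mx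
      have fk := fx_mul (fx_inv f1) fx
      obtain ⟨i, -, hi⟩ := hm (h * (h⁻¹ * x) ^ (pp ^ 2) ^ (k + 1)) (by
        have := (PadicInt.norm_lt_one_iff_dvd _).2 ((dvd_pow_self _ one_ne_zero).trans
          (Pg.Hm_two.1 (pow_one pp ▸ fx_mul f1 (fx_pow fk ((pp ^ 2) ^ (k + 1))) :
            _ ∈ Hm (pp ^ 1))))
        rw [← X4S.lt_one_iff, show ∀ g, X4S.ep e.rp g = ((e.r g).det : ℤ_[pp]) from fun g =>
          (RingHom.map_det PadicInt.Coe.ringHom _).symm, Crv.r, X4M.TE.det_cyc]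
        exact this)
      refine ⟨(h⁻¹ * x) ^ (pp ^ 2) ^ (k + 1) * u ^ (1 * i), mul_mem (pow_mem mk _) (pow_mem u0 _),
        fx_mul (fx_pw mk fk k) (fx_pow (fun y hy => u3 (k + 1) y (.inr ?_)) _), ?_, mul_assoc h _ _ ▸ hi⟩
      · obtain ⟨z, hz⟩ := fixed hy.2.1
        exact ⟨z, fun z0 => hy.1 (by rw [← hz, Set.mem_singleton_iff.1 z0, map_zero]), hz⟩
      · rw [map_mul, map_mul, map_pow, map_pow, au, one_pow, mul_one,
          pow_eq_pow_mod _ ((pow_two _).trans (pm ra.dg _).1), show (pp ^ 2) ^ (k + 1) % 2 = 1 by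
            rw [Nat.pow_mod, show pp ^ 2 % 2 = 1 from rfl, one_pow]; rfl, pow_one, ← map_mul,
          mul_inv_cancel_left, ax]) Q σ hQ
  exact ⟨c, χ, L, c1, c2, fun q h d => ⟨(c3 q h d).1, (c3 q h d).2.imp_right
    fun ⟨n, P, ψ, o, f, t⟩ => ⟨nq ra.rs o (mt List.mem_toFinset.1 n) f t.1,
      F.Pt.gq_nd o n f t.2 (Nat.lt_succ_self _)⟩⟩⟩

end Vale.Agent.P014Y.Rk
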