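import Vale.Agent.P014Y.Rk.Bal

/-! # P014Y, block RK, row KILA (helper87; the induction after `Md.kil1`) -/

set_option autoImplicit false
set_option linter.all false

noncomputable section

namespace Vale.Agent.P014Y.Rk

open NumberField Matrix Module
open scoped Classical
open Vale.Agent.P022 (Qb GQ)
open Vale.Agent.P022D.W (dec)
open Vale.Agent.P014U
open L2 (W M2)
open X4S (Pl)
open Mu Mu.Lo Mu.Li Mu.Gw Md Md.Ki Md.Gm Ba

variable [Pp] {a : GQ →* M2} {pl : Pl} {S Q : Finset ℕ} {j : Fin 2} {q : ℕ}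

namespace K2

theorem b_eq (d : Dg a) (n : Nf a ⊤) (j : Fin 2) : finrank F ↥(Bl a ⊤ ⊓ Cm j) = 1 := by
  have e : finrank F (Bl a ⊤) = 2 := (Fin0.dim_bl n).trans (finrank_fin_fun _)
  have : Module.Finite F (Bl a ⊤) := Module.finite_of_finrank_pos (by omega)
  have a1 := (d.bl ⊤).fr j
  have a2 := b_le1 d (j := j) le_rfl
  have a3 := b_le1 d (j := j + 1) le_rfl
  omega

theorem le_iff (d : Dg a) (n : Nf a ⊤) {M : Submodule F X} [Module.Finite F M] (h : Bl a ⊤ ≤ M) :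
    M ⊓ Cm j ≤ Bl a ⊤ ↔ finrank F ↥(M ⊓ Cm j) ≤ 1 :=
  ⟨fun k => le_self_add.trans (b_le1 d (le_inf k inf_le_right)), fun k =>
    (Submodule.eq_of_le_of_finrank_le (inf_le_inf_right _ h) (k.trans (b_eq d n j).ge)).ge.trans
      inf_le_left⟩

theorem ag1 {pl' : Pl} (r : Rs a S) (g : Ag pl pl' Q) (m : q ∈ Q) (k : U1 a pl S q) :
    U1 a pl' S q := (g.2.2.2 q m).elim fun b e => ⟨k.pr, k.out, by
  rw [e, map_mul, k.fr, one_mul, (l1 r k).one _
    (pow_mem (P022D.W.inP_le_dec (pl.gn q k.pr (np r k)).1) b)]⟩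

theorem pick {B A R : Submodule F X} (h : A ≤ R) :
    ∃ z ∈ R, (¬ R ≤ B → z ∉ B) ∧ (¬ A ≤ B → z ∈ A) := by
  by_cases k : A ≤ B
  · by_cases k' : R ≤ B
    · exact ⟨0, zero_mem _, fun x => (x k').elim, fun x => (x k).elim⟩
    · obtain ⟨z, m, n⟩ := SetLike.not_le_iff_exists.1 k'
      exact ⟨z, m, fun _ => n, fun x => (x k).elim⟩
  · obtain ⟨z, m, n⟩ := SetLike.not_le_iff_exists.1 k
    exact ⟨z, h m, fun _ => n, fun _ => m⟩

section

variable {B A R Y : Submodule F X} {σ τ : GQ}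
  (h : Sd B A R Y (LinearMap.proj σ) (LinearMap.proj τ))
include h

theorem alive {z : X} (hz : z ∈ R ⊓ Cm (j + 1)) (n : z σ ≠ 0) (b : F) :
    nw Y (LinearMap.proj σ) (LinearMap.proj τ) b ⊓ Cm j ≤ A := fun x m =>
  (h.st x).2 ⟨m.1.1, wp_ln (mem_cm.1 m.2 τ) (by simpa [succ2] using mem_cm.1 hz.2 σ)
    (h.rc z hz.1 x m.1.1) n⟩

theorem dead (k : A ⊓ Cm j ≤ B) :
    ∃ b₀, ∀ b ≠ b₀, nw Y (LinearMap.proj σ) (LinearMap.proj τ) b ⊓ Cm j ≤ A := by
  by_cases c : ∀ b, nw Y (LinearMap.proj σ) (LinearMap.proj τ) b ⊓ Cm j ≤ A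
  · exact ⟨0, fun b _ => c b⟩
  obtain ⟨b₀, c⟩ := not_forall.1 c
  obtain ⟨x, ⟨x1, x2⟩, n⟩ := SetLike.not_le_iff_exists.1 c
  refine ⟨b₀, fun b e y ⟨y1, y2⟩ => ?_⟩
  obtain ⟨x1, x3⟩ := mem_nw.1 x1
  obtain ⟨y1, y3⟩ := mem_nw.1 y1
  have t : x τ j ≠ 0 := fun z => n ((h.st x).2 ⟨x1, w_ext (j := j) z (mem_cm.1 x2 τ)⟩)
  have m := sub_mem y2 (Submodule.smul_mem _ (y τ j / x τ j) x2)
  have := congrFun (h.be _ (k ⟨(h.st _).2 ⟨sub_mem y1 (Submodule.smul_mem _ (y τ j / x τ j) x1),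
    w_ext (j := j) (by simp [t]) (mem_cm.1 m τ)⟩, m⟩)) j
  have x4 := congrFun x3 j
  have y4 := congrFun y3 j
  simp only [LinearMap.proj_apply, Pi.sub_apply, Pi.smul_apply, Pi.add_apply, smul_eq_mul,
    Pi.zero_apply] at this x4 y4
  refine (h.st y).2 ⟨y1, w_ext (j := j) ((mul_eq_zero.1 (?_ : (b - b₀) * y τ j = 0)).resolve_left
    (sub_ne_zero.2 e)) (mem_cm.1 y2 τ)⟩
  linear_combination y4 - this - y τ j / x τ j * x4 + b₀ * div_mul_cancel₀ (y τ j) t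

end

/-- **one step for one plane** -/
theorem stp (r : Rs a S) (d : Dg a) (n : Nf a ⊤) (e : Ev a j) (u : ∀ x ∈ Q, U1 a pl S x) :
    ∃ z : Fin 2 → X, (∀ i, z i ∈ Zg a (S ∪ Q) ⊓ Cm i) ∧ ∀ q ∉ Q, U1 a pl S q →
      (∀ i, z i ∉ Bl a ⊤ → z i (pl.σ q) ≠ 0) → ∃ b₀ : F, ∀ b ≠ b₀,
        St a (up pl q b.val) S (insert q Q) ≤ St a pl S Q ∧
        (¬ St a pl S Q ≤ Bl a ⊤ → St a (up pl q b.val) S (insert q Q) ≠ St a pl S Q) := by
  obtain ⟨g1, g2, g3, -⟩ := gwl1 a pl S Q r u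
  have : Module.Finite F (St a pl S Q) := Submodule.finiteDimensional_of_le g3
  obtain ⟨b1, b2⟩ := bal a pl S Q j r d u e
  choose z z1 z2 z3 using fun i => pick (B := Bl a ⊤) (inf_le_inf_right (Cm i) g3)
  refine ⟨z, fun i => ⟨(z1 i).1.1.1, (z1 i).2⟩, fun q nq uq v => ?_⟩
  have h := sd r u uq nq
  have c := Submodule.finrank_mono (inf_le_inf_right (Cm j) g2)
  rw [b_eq d n] at c
  have a1 := alive h (z1 (j + 1)) (v _ (z2 _ ((le_iff d n (g2.trans g3)).not.2 (by omega))))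
  obtain ⟨b₀, a2⟩ : ∃ b₀, ∀ b ≠ b₀, nw _ _ _ b ⊓ Cm (j + 1) ≤ St a pl S Q := by
    by_cases k : St a pl S Q ⊓ Cm (j + 1) ≤ Bl a ⊤
    · exact dead h k
    · exact ⟨0, fun b _ => alive h (z := z j) (by rw [succ2]; exact z1 j) (v j (z2 j
        ((le_iff d n (g2.trans g3)).not.2 (b1 ▸ (le_iff d n g2).not.1 k)))) b⟩
  refine ⟨b₀, fun b nb => ?_⟩
  have le := (d.st (up pl q b.val) S (insert q Q)).le j (st_new r u uq nq b ▸ a1 b)
    (st_new r u uq nq b ▸ a2 b nb)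
  refine ⟨le, fun k e => k ((d.st pl S Q).le j ?_ ?_)⟩ <;> refine by_contra fun k => ?_
  all_goals
    have m := (z3 _ k).1
    have t := ((h.st _).1 m).2
    rw [← e, st_new r u uq nq] at m
    have := (mem_nw.1 m).2
    rw [t, smul_zero, add_zero] at this
    exact v _ (z2 _ fun x => k ((inf_le_inf_right _ g3).trans x)) this

end K2

open K2

/-- **row KILA** -/
theorem kila : KILA := by
  intro ι _ a v pl S c h
  have fin : ∀ i pl Q, (∀ q ∈ Q, U1 (a i) pl S q) → Module.Finite F (St (a i) pl S Q) :=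
    fun i pl Q u => haveI := zg_fin (rs_u1 (h i).1 u)
      Submodule.finiteDimensional_of_le (S₂ := Zg (a i) (S ∪ Q)) (inf_le_left.trans inf_le_left)
  refine ⟨∑ i, finrank F (St (a i) pl S ∅), fun G hG sp => ?_⟩
  have key : ∀ (k : ℕ) (Q : Finset ℕ) (pl' : Pl), Ag pl pl' Q → (∀ q ∈ Q, G q) →
      ∑ i, finrank F (St (a i) pl' S Q) ≤ k → ∃ (Q' : Finset ℕ) (pl' : Pl), Ag pl pl' Q' ∧
        Q'.card ≤ Q.card + k ∧ (∀ q ∈ Q', G q) ∧ ∀ i, St (a i) pl' S Q' ≤ Bl (a i) ⊤ := by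
    intro k
    induction k using Nat.strong_induction_on with
    | _ k ih =>
    intro Q pl' ag g le
    by_cases dd : ∀ i, St (a i) pl' S Q ≤ Bl (a i) ⊤
    · exact ⟨Q, pl', ag, le_self_add, g, dd⟩
    obtain ⟨i₀, dd⟩ := not_forall.1 dd
    have u : ∀ i, ∀ q ∈ Q, U1 (a i) pl' S q := fun i q m => ag1 (h i).1 ag m (hG q (g q m) i)
    choose z z1 z2 using fun i => stp (h i).1 (h i).2.1 (h i).2.2.1 (h i).2.2.2 (u i)
    obtain ⟨q, nq, gq, w⟩ := sp (S ∪ Q) z (fun i => rs_u1 (h i).1 (u i)) fun i j =>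
      ⟨z1 i j, fun t => by
        have := congrFun ((h i).2.2.1 (Pi.single j 1) fun g _ => w_ext (j := j)
          (by rw [(h i).2.1.mv, t, one_mul])
          (by rw [(h i).2.1.mv, Pi.single_eq_of_ne succ_ne, mul_zero])) j
        simp at this⟩
    have nQ : q ∉ Q := fun m => nq (Finset.mem_union_right _ m)
    obtain ⟨a1, a2, a3, a4⟩ := ag
    have e : pl'.σ q = pl.σ q := a3 q nQ
    have uq : ∀ i, U1 (a i) pl' S q := fun i =>
      ⟨(hG q gq i).pr, (hG q gq i).out, e ▸ (hG q gq i).fr⟩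
    choose b₀ hb using fun i => z2 i q nQ (uq i) (e ▸ w i)
    obtain ⟨b, nb⟩ : ∃ b, b ∉ Set.range b₀ := not_forall.1 fun s =>
      (Fintype.card_le_of_surjective b₀ s).not_gt (by rwa [ZMod.card])
    have hb := fun i => hb i b fun x => nb ⟨i, x.symm⟩
    have lt : ∑ i, finrank F (St (a i) (up pl' q b.val) S (insert q Q)) <
        ∑ i, finrank F (St (a i) pl' S Q) := Finset.sum_lt_sum
      (fun i _ => haveI := fin i pl' Q (u i); Submodule.finrank_mono (hb i).1)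
      ⟨i₀, Finset.mem_univ _, haveI := fin i₀ pl' Q (u i₀)
        Submodule.finrank_lt_finrank_of_lt (lt_of_le_of_ne (hb i₀).1 ((hb i₀).2 dd))⟩
    obtain ⟨Q', pl'', c1, c2, c3⟩ := ih _ (lt.trans_le le) (insert q Q) (up pl' q b.val)
      ⟨a1, a2, fun l m => by
        rw [Finset.mem_insert, not_or] at m
        exact (up_ne m.1).trans (a3 l m.2), fun l m => by
        by_cases k : l = q
        · exact ⟨b.val, by rw [k, up_eq (np (h i₀).1 (uq i₀)), e, show pl'.τ = pl.τ from a2]⟩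
        · rw [up_ne k]
          exact a4 l ((Finset.mem_insert.1 m).resolve_left k)⟩
      ((Finset.forall_mem_insert _ _ _).2 ⟨gq, g⟩) le_rfl
    have := Finset.card_insert_le q Q
    exact ⟨Q', pl'', c1, by omega, c3⟩
  obtain ⟨Q, pl', ag, c1, g, dd⟩ := key _ ∅ pl ⟨rfl, rfl, fun _ _ => rfl, by simp⟩ (by simp) le_rfl
  refine ⟨Q, pl', ag, by simpa using c1, g, fun i => ⟨dd i, ?_⟩⟩
  obtain ⟨r, d, n, e⟩ := h i
  have u : ∀ q ∈ Q, U1 (a i) pl' S q := fun q m => ag1 r ag m (hG q (g q m) i)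
  obtain ⟨g1, g2, g3, -⟩ := gwl1 _ pl' S Q r u
  rw [le_iff d n (g2.trans g3), (bal _ pl' S Q _ r d u e).1]
  exact le_self_add.trans (b_le1 d (inf_le_inf_right _ (dd i)))

end Vale.Agent.P014Y.Rk
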