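import Vale.Agent.P014Y.Rk.Bal0

/-! # P014Y, block RK: the formula of Greenberg and Wiles for one character (helper87) -/

set_option autoImplicit false
set_option linter.all false

noncomputable section

namespace Vale.Agent.P014Y.Rk

open NumberField Matrix Module
open scoped Classical
open Vale.Agent.P022 (Qb GQ IsConj)
open Vale.Agent.P022D.W (dec)
open Vale.Agent.P014U
open L2 (W M2)
open X4S (Pl)
open Mu Mu.Lo Mu.Li Mu.Gw Md Md.Ki Ba

variable [Pp] {a : GQ →* M2} {pl : Pl} {S Q : Finset ℕ} {j : Fin 2} {c : GQ}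

namespace Ba

/-- the coboundaries of one character -/
theorem b_le1 (d : Dg a) {M : Submodule F X} (h : M ≤ Bl a ⊤ ⊓ Cm j) :
    finrank F M + et a ⊤ j ≤ 1 := by
  let φ : F →ₗ[F] X := P022K.G2.d0 (L2.rh a) ∘ₗ LinearMap.single F (fun _ => F) j
  have e : ∀ t g, φ t g = a g *ᵥ Pi.single j t - Pi.single j t := fun _ _ => rfl
  have le : M ≤ LinearMap.range φ := fun x m => by
    obtain ⟨⟨v, hv⟩, k⟩ := h m
    refine ⟨v j, funext fun g => ?_⟩
    rw [← pj_of k, pj_ap, hv g trivial, Ul.d0_ap, map_sub, d.pw]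
    rfl
  unfold et
  split_ifs with t
  · rw [show φ = 0 from LinearMap.ext fun s => funext fun g => (e s g).trans (w_ext (j := j)
      (by simp [d.mv, t g trivial]) (by simp [d _ _ _ succ_ne, succ_ne])), LinearMap.range_zero,
      le_bot_iff] at le
    rw [le, finrank_bot]
  · exact (Submodule.finrank_mono le).trans (φ.finrank_range_le.trans_eq (finrank_self F))

theorem half (r : Rs a S) (d : Dg a) (u : ∀ q ∈ Q, U1 a pl S q) (k : IsConj c) (j : Fin 2) :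
    finrank F ↥(St a pl S Q ⊓ Cm (j + 1)) + (if a c (j + 1) (j + 1) = 1 then 1 else 0) ≤
      finrank F ↥(Rl a pl S Q ⊓ Cm j) := by
  have r0 := rs_u1 r u
  obtain ⟨T₁, s₁, p₁, -, -, -, sh, -⟩ := Bg.big0 r.det r.opn pl.P pl.ov _ r0.pr
  obtain ⟨T, s, r', b⟩ := big1 r.toR0 d k pl.P pl.ov T₁ p₁
  have s' := s₁.trans s
  obtain ⟨f, i⟩ := inv pl
  have un := unq a pl _ _ r0 s' r'.pr
  have np : pp ∉ Q := fun m => (u _ m).out r.pm
  have lc : ∀ l ∉ Q, Lc a pl Q l = Ur a (pl.P l) := fun l m => if_neg m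
  have t := two_rk (T' := T.filter fun l => ∀ g ∈ dec (pl.P l), a g (j + 1) (j + 1) = 1)
    (L := fun l => Lc a pl Q l ⊓ Cm (j + 1)) (A := Zg a T ⊓ Cm j)
    (A' := St a pl S Q ⊓ Cm (j + 1)) (recq a pl T f r' i)
    (fun l => LinearMap.proj (j + 1) ∘ₗ LinearMap.proj (if l ∈ Q then pl.τ l else pl.σ l))
    (Finset.filter_subset _ _) (fun l _ => inf_le_left.trans (lc_le l))
    (fun l m x ⟨x1, x2⟩ h => ?_) inf_le_left fun x ⟨⟨x1, x2⟩, x3⟩ =>
      mem_sl.2 ⟨zg_mono s' x1.1, fun l m => ⟨?_, x3⟩⟩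
  · have := (gwl1 a pl S Q r u).1
    have c1 := Submodule.finrank_mono (show sl (Zg a T ⊓ Cm j) T (fun l => ot (Cl a (dec (pl.P l)))
        (bt a (f l)) (Lc a pl Q l ⊓ Cm (j + 1))) ≤ Rl a pl S Q ⊓ Cm j from fun y m => by
      obtain ⟨⟨y1, y2⟩, y3⟩ := mem_sl.1 m
      have o : ∀ l ∈ T, y ∈ Ot a (dec (pl.P l)) (Lc a pl Q l) := fun l m => ⟨zg_cl _ y1, fun x n => by
        rw [← pj_of y2, d.cu]
        exact (bt_iff r.toR0 (i.loc l (r'.pr l m)) (lc_le l (d.lc pl Q l _ x n)) (zg_cl _ y1)).1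
          ((y3 l m).2 _ ⟨d.lc pl Q l _ x n, pj_cm⟩)⟩
      have o' : ∀ l ∈ T, l ≠ pp → y ∈ Lc a pl Q l := fun l m n =>
        (Ki.lc_lag r u (r'.pr l m) n).1.le (o l m)
      refine ⟨⟨mem_sl.2 ⟨un.le (mem_sl.2 ⟨y1, fun l m => ?_⟩), fun l m =>
        o' l (s' (Finset.mem_of_mem_erase m)) (Finset.ne_of_mem_erase m)⟩,
        lc pp np ▸ o pp r'.pm⟩, y2⟩
      obtain ⟨m, n⟩ := Finset.mem_sdiff.1 m
      exact lc l (fun e => n (Finset.mem_union_right _ e)) ▸ o' l m fun e => n (e ▸ r0.pm))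
    have c2 := b_le1 d (show sl (St a pl S Q ⊓ Cm (j + 1)) T (fun l => Bl a (dec (pl.P l))) ≤ _ from
      fun y m => ⟨sh y (zg_mono s₁ m.1.1.1.1) fun l n => (mem_sl.1 m).2 l (s n), m.1.2⟩)
    have b := b j
    rw [Finset.card_filter] at t
    unfold et at b c2
    omega
  · have pl' := r'.pr l m
    by_cases q : l ∈ Q
    · have h1 := l1 r (u l q)
      rw [Lc, if_pos q, SetLike.mem_coe, h1.rq (pl.fb l pl')] at x1
      refine h1.ext (pl.fb l pl') (pl.gn l pl' h1.np) x1.1 x1.2 (w_ext (j := j + 1) ?_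
        (mem_cm.1 x2 _))
      simpa [q] using h (Finset.mem_filter.2 ⟨m, fun g n => by rw [h1.one g n, one_apply_eq]⟩)
    · exact d.ur_bl r.toR0 (pl.ov l pl') (pl.fb l pl') (lc l q ▸ x1) x2 fun e => by
        simpa [q] using h (Finset.mem_filter.2 ⟨m, e⟩)
  · by_cases e : l = pp
    · exact e ▸ (lc pp np).ge x2
    by_cases n : l ∈ S ∪ Q
    · exact (mem_sl.1 x1).2 l (Finset.mem_erase.2 ⟨e, n⟩)
    · exact (lc l fun e => n (Finset.mem_union_right _ e)).ge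
        ((mem_sl.1 (un.ge x1.1)).2 l (Finset.mem_sdiff.2 ⟨m, n⟩))

end Ba

/-- **the separated count** -/
theorem bal (a : GQ →* M2) (pl : Pl) (S Q : Finset ℕ) (j : Fin 2) (r : Rs a S) (d : Dg a)
    (u : ∀ q ∈ Q, U1 a pl S q) (e : Ev a j) :
    finrank F ↥(Rl a pl S Q ⊓ Cm j) = finrank F ↥(St a pl S Q ⊓ Cm (j + 1)) ∧
      finrank F ↥(Rl a pl S Q ⊓ Cm (j + 1)) = finrank F ↥(St a pl S Q ⊓ Cm j) + 1 := by
  obtain ⟨c, k, e⟩ := e
  obtain ⟨g1, -, g3, g4, -⟩ := gwl1 a pl S Q r u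
  have : Module.Finite F (St a pl S Q) := Submodule.finiteDimensional_of_le g3
  have a1 := half r d u k j
  have a2 := half r d u k (j + 1)
  have a3 := (d.st pl S Q).fr j
  have a4 := (d.rl pl S Q).fr j
  rw [succ2, if_pos e] at a2
  omega

end Vale.Agent.P014Y.Rk
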