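import Vale.Agent.P014Y.Rk.Cm

/-! # P014Y, block RK: the count for one character at a large set of primes (helper87; after
`Mu.Bg.big0`) -/

set_option autoImplicit false
set_option linter.all false

noncomputable section

namespace Vale.Agent.P014Y.Rk.Ba

open NumberField Matrix Module Cardinal
open scoped Classical
open Vale.Agent.P022 (Qb GQ IsConj)
open Vale.Agent.P022D.W (dec)
open Vale.Agent.P022E.GW (Ov)
open Vale.Agent.P022K Vale.Agent.P022K.G2 Vale.Agent.P014U Vale.Agent.P014U.L2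
open Mu (F X Zg R0 Rs)

variable [Pp] {a : GQ →* M2} {j : Fin 2} {D : Subgroup GQ} {c g : GQ}

/-- the dimension of the invariants of the character at `j` -/
def et (a : GQ →* M2) (D : Subgroup GQ) (j : Fin 2) : ℕ := if ∀ g ∈ D, a g j j = 1 then 1 else 0

theorem pd (d : Dg a) (r : R0 a) (g : GQ) (j : Fin 2) :
    a g j j * a g (j + 1) (j + 1) = om pp F g := (d.det g j).symm.trans (congrFun r.det g)

theorem hm (d : Dg a) (r : R0 a) : rk (Hm D (ch fun g => a g j j) (om pp F)) = et a D (j + 1) := by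
  unfold et
  split_ifs with e
  · have : Hm D (ch fun g => a g j j) (om pp F) = ⊤ := eq_top_iff.2 fun f _ g m n => by
      rw [← pd d r g j, e g m, mul_one, ch_apply, ← smul_eq_mul, map_smul, smul_eq_mul]
    rw [this, rk, rank_top, ← finrank_eq_rank, Subspace.dual_finrank_eq, finrank_self]
  · push Not at e
    obtain ⟨g, m, e⟩ := e
    have : Hm D (ch fun g => a g j j) (om pp F) = ⊥ := eq_bot_iff.2 fun f k => LinearMap.ext fun n => by
      have := k g m n
      rw [← pd d r g j, ch_apply, ← smul_eq_mul, map_smul, smul_eq_mul, mul_assoc] at this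
      exact by_contra fun z => e (mul_right_cancel₀ z
        ((mul_left_cancel₀ (d.ne g j) this).symm.trans (one_mul _).symm))
    rw [this, rk, rank_bot, Nat.cast_zero]

theorem hs (d : Dg a) {x y : W} (xy : P004S.wp x y = 1) : Hs a x = a.ker := by
  refine le_antisymm (fun g m => ?_) ker_le
  obtain ⟨i, n⟩ : ∃ i, x i ≠ 0 := Function.ne_iff.1 fun e => by
    rw [e] at xy
    simp [P004S.wp] at xy
  have e := mul_right_cancel₀ n (((d.mv g x i).symm.trans (congrFun m.1 i)).trans (one_mul _).symm)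
  have e' : (a g).det = 1 := m.2
  have o := d g 0 1 (by decide)
  have o' := d g 1 0 (by decide)
  rw [det_fin_two, o, zero_mul, sub_zero] at e'
  show a g = 1
  ext p q
  fin_cases i <;> fin_cases p <;> fin_cases q <;> simp_all

theorem ok (d : Dg a) {T : Finset ℕ} (k : Ok pp T ⊤ a.ker (rh a)) (j : Fin 2) :
    Ok pp T ⊤ a.ker (ch fun g => a g j j) := by
  have t : ∀ u ∈ a.ker, ch (fun g => a g j j) u = 1 := fun u m => by
    rw [ch, show a u = 1 from m, one_apply_eq, one_smul]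
  have r : Rp (In T) ⊤ (ch fun g => a g j j) := ⟨t 1 (one_mem _), fun g _ h _ => by
    simp only [ch, d.mul, smul_mul_smul_comm, mul_one],
    k.lg.lv.imp fun _ e => ⟨e.1, fun w m n => t w (e.2 w m n)⟩⟩
  obtain ⟨x, y, xy, n⟩ := ex_syl a ⊤
  exact ⟨inferInstance, r, k.lg, t, .inl (hs d xy ▸ prj k.rp r n)⟩

theorem zle (d : Dg a) {T : Finset ℕ} (r : Rs a T) (j : Fin 2) :
    rk (Z1 (In T) ⊤ (ch fun g => a g j j)) ≤ finrank F ↥(Zg a T ⊓ Cm j) := by
  have := Mu.Lo.zg_fin r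
  let ι : (GQ → F) →ₗ[F] X := (LinearMap.single F (fun _ => F) j).compLeft GQ
  have e : ∀ z g, ι z g = Pi.single j (z g) := fun _ _ => rfl
  rw [finrank_eq_rank]
  refine (rank_map_eq (f := ι) (fun x y h => funext fun g =>
    Pi.single_injective j (congrFun h g)) _).symm.trans_le (Submodule.rank_mono ?_)
  rintro _ ⟨z, ⟨h1, h2, U, o, h3⟩, rfl⟩
  refine ⟨⟨fun g m h n => funext fun i => ?_, fun g m => (m trivial).elim, U, o, fun w m n => by
    rw [e, h3 w m n, Pi.single_zero]⟩, fun g i n => by rw [e, Pi.single_eq_of_ne n]⟩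
  rw [Pi.add_apply, mulVecLin_apply, d.mv, e, e, e, h1 g m h n, ch_apply]
  by_cases k : i = j
  · subst k
    simp only [Pi.single_eq_same]
  · simp only [Pi.single_eq_of_ne k, mul_zero, add_zero]

/-- **the count at a large set of primes** -/
theorem big1 (r : R0 a) (d : Dg a) (k : IsConj c) (P : ℕ → Ideal (𝓞 Qb))
    (ov : ∀ l, l.Prime → Ov l (P l)) (T₀ : Finset ℕ) (pr : ∀ l ∈ T₀, l.Prime) :
    ∃ T, T₀ ⊆ T ∧ Rs a T ∧ ∀ j, ∑ l ∈ T, et a (dec (P l)) (j + 1) +
      (if a c (j + 1) (j + 1) = 1 then 1 else 0) + 1 ≤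
        finrank F ↥(Zg a T ⊓ Cm j) + et a ⊤ (j + 1) := by
  obtain ⟨T', s, p, k'⟩ := Mu.Bg.ex_ok r.det r.opn T₀ pr
  have L := k'.lg
  set T := T'.erase 0
  have pT : ∀ l ∈ T, l.Prime := fun l m =>
    (p l (Finset.mem_of_mem_erase m)).resolve_left (Finset.ne_of_mem_erase m)
  have eI : In T = In T' := Set.ext fun g => exists_congr fun l => ⟨fun ⟨n, Q, o, i⟩ =>
    ⟨fun m => n (Finset.mem_erase.2 ⟨o.1.ne_zero, m⟩), Q, o, i⟩,
    fun ⟨n, b⟩ => ⟨fun m => n (Finset.mem_of_mem_erase m), b⟩⟩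
  obtain ⟨φ, hc⟩ := k
  let w := InfinitePlace.mk φ
  let x : Option T → Plc := fun i => i.elim (ip w) fun l => fp (P l)
  have o := fun l : T => ov l (pT l l.2)
  have hx : Reps (G := GQ) ⊤ (Ab T') x := by
    refine ⟨fun i g _ => Plc.ab_smul ?_ g, fun y m => ?_, ?_⟩
    · rcases i with _ | l
      exacts [mem_ab_ip.2 L.h0, mem_ab_fp.2 ⟨l, Finset.mem_of_mem_erase l.2, o l⟩]
    · obtain ⟨l, n, m⟩ := Plc.ab_one m
      obtain rfl | e := eq_or_ne l 0
      · obtain ⟨g, e⟩ := Plc.ab_trans (y := ip w) (mem_ab_ip.2 rfl) m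
        exact ⟨none, g, trivial, e⟩
      · have n' : l ∈ T := Finset.mem_erase.2 ⟨e, n⟩
        obtain ⟨g, e⟩ := Plc.ab_trans (mem_ab_fp.2 ⟨l, rfl, o ⟨l, n'⟩⟩) m
        exact ⟨some ⟨l, n'⟩, g, trivial, e⟩
    · rintro (_ | l) (_ | l') g - e
      exacts [rfl, (nomatch e), (nomatch e), congrArg some (Subtype.ext (GW.Pl.ov_uniq
        (GW.ov_smul (o l) g) ((Sum.inl.inj e).subst (o l'))))]
  have d0 : ∀ g ∈ Dv ⊤ x none, g = 1 ∨ g = c := fun g m => (Set.ext_iff.1 (st_conj hc) g).1 m.2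
  have d1 : ∀ l : T, Dv ⊤ x (some l) = dec (P l) := fun l => (top_inf_eq _).trans (st_fp _)
  have rs : Rs a T := ⟨r, Finset.mem_erase.2 ⟨pp_prime.ne_zero, L.hp⟩, pT, eI ▸ Hb.le_in L.lv⟩
  refine ⟨T, fun l m => Finset.mem_erase.2 ⟨(pr l m).ne_zero, s m⟩, rs, fun j => ?_⟩
  have b := (P014U.G2.lb2 _ F ⊤ a.ker T' _ x _ (ok d k' j) hx).trans
    (add_le_add_left (eI ▸ zle d rs j) _)
  simp only [hm d r, Fintype.sum_option, rank_self, d1] at b
  have b' : et a (Dv ⊤ x none) (j + 1) + ∑ l : T, et a (dec (P l)) (j + 1) + 1 ≤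
      finrank F ↥(Zg a T ⊓ Cm j) + et a ⊤ (j + 1) := by exact_mod_cast b
  rw [Finset.sum_coe_sort T fun l => et a (dec (P l)) (j + 1)] at b'
  split_ifs with e
  · rw [et, if_pos fun g m => by
      obtain rfl | rfl := d0 g m
      exacts [by rw [map_one, one_apply_eq], e]] at b'
    omega
  · omega

end Vale.Agent.P014Y.Rk.Ba
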