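import Vale.Agent.P014Y.Md.St
import Vale.Agent.P014Y.Bo.Dsc

/-! # P014Y, block RK: killing for split planes (words, rows, glue) -/

set_option autoImplicit false
set_option linter.all false

noncomputable section

namespace Vale.Agent.P014Y.Rk

open NumberField Matrix Module
open scoped Classical
open Vale.Agent.P022 (Qb GQ IsConj)
open Vale.Agent.P022D.W (dec)
open Vale.Agent.P022E.GW (Ov Fb)
open Vale.Agent.P014U
open L2 (W M2)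
open X4S (Pl)
open P004S (nu)
open P014Y.F (Crv Fld)
open Tp (Lz)
open Mu
open Md (U1 Ag Fq)
open Bo (Kl2 Nq LEV2 DSC2)

section

variable [Pp]

/-- diagonal -/
def Dg (a : GQ →* M2) : Prop := ∀ g i j, i ≠ j → a g i j = 0

/-- values in the line `j` -/
def Cm (j : Fin 2) : Submodule F X where
  carrier := {z | ∀ g i, i ≠ j → z g i = 0}
  add_mem' p q g i n := by rw [Pi.add_apply, Pi.add_apply, p g i n, q g i n, add_zero]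
  zero_mem' _ _ _ := rfl
  smul_mem' c z p g i n := by rw [Pi.smul_apply, Pi.smul_apply, p g i n, smul_zero]

/-- the character at `j` is even -/
def Ev (a : GQ →* M2) (j : Fin 2) : Prop := ∃ c, IsConj c ∧ a c j j = 1

/-- the character at `j` is trivial -/
def Tv (a : GQ →* M2) (j : Fin 2) : Prop := ∀ g, a g j j = 1

/-- a class of the character at `j`; it is unramified at `pp` when the character is trivial -/
def Ty (a : GQ →* M2) (pl : Pl) (T : Finset ℕ) (j : Fin 2) (z : X) : Prop :=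
  z ∈ Zg a T ⊓ Cm j ∧ (Tv a j → z ∈ Ur a (pl.P pp))

/-- enough primes with the property `G`: one class for each character -/
def Sp3 {ι : Type} (a : ι → GQ →* M2) (pl : Pl) (G : ℕ → Prop) : Prop :=
  ∀ (T : Finset ℕ) (z : ι → Fin 2 → X), (∀ i, Rs (a i) T) → (∀ i j, Ty (a i) pl T j (z i j)) →
    ∃ q ∉ T, G q ∧ ∀ i j, z i j ∉ Bl (a i) ⊤ → z i j (pl.σ q) ≠ 0

/-- the pair with the even character at `j` is dead -/
def Dd (a : GQ →* M2) (pl : Pl) (S Q : Finset ℕ) (j : Fin 2) : Prop :=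
  St a pl S Q ≤ Bl a ⊤ ∧ Rl a pl S Q ⊓ Cm j ≤ Bl a ⊤

/-- **killing**: fewer planes than slopes -/
def KILA : Prop := ∀ (ι : Type) [Fintype ι] (a : ι → GQ →* M2) (v : ι → Fin 2) pl S,
  Fintype.card ι < pp → (∀ i, Rs (a i) S ∧ Dg (a i) ∧ Nf (a i) ⊤ ∧ Ev (a i) (v i)) →
  ∃ k : ℕ, ∀ G : ℕ → Prop, (∀ q, G q → ∀ i, U1 (a i) pl S q) → Sp3 a pl G →
    ∃ (Q : Finset ℕ) (pl' : Pl), Ag pl pl' Q ∧ Q.card ≤ k ∧ (∀ q ∈ Q, G q) ∧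
      ∀ i, Dd (a i) pl' S Q (v i)

/-- two dead pairs kill -/
def KLA : Prop := ∀ a a' (pl : Pl) (S Q : Finset ℕ) (j j' : Fin 2), Rs a S → Rs a' S → Dg a →
  Dg a' → j ≠ j' → (∀ q ∈ Q, U1 a pl S q ∧ U1 a' pl S q) →
  (∀ g ∈ dec (pl.P pp), a' g = a g) → Dd a pl S Q j → Dd a' pl S Q j' → Kl a a' pl S Q

/-- three classes: of the two characters of `a` and of the character at `j` of `a'` -/
structure Th (a a' : GQ →* M2) (pl : Pl) (T : Finset ℕ) (j : Fin 2) (x y z : X) : Prop where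
  tx : Ty a pl T j x ∧ x ∉ Bl a ⊤
  ty : Ty a pl T (j + 1) y ∧ y ∉ Bl a ⊤
  tz : Ty a' pl T j z ∧ z ∉ Bl a' ⊤

/-- **killing with a trivial character**: the slope at the last prime is arbitrary -/
def KILB : Prop := ∀ (a a' : GQ →* M2) (j : Fin 2) (pl : Pl) S, Rs a S → Rs a' S → Dg a → Dg a' →
  Tv a j → Nf a' ⊤ → Ev a' (j + 1) → (∀ g ∈ dec (pl.P pp), a' g = a g) →
  ∃ k : ℕ, ∀ G : ℕ → Prop, (∀ q, G q → ∀ i, U1 (![a, a'] i) pl S q) → Sp3 ![a, a'] pl G →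
    ∃ (Q : Finset ℕ) (pl' : Pl), Ag pl pl' Q ∧ Q.card ≤ k ∧ (∀ q ∈ Q, G q) ∧
      ∃ x y z, Th a a' pl' (S ∪ Q) j x y z ∧ ∀ q ∉ Q, U1 a pl' S q → U1 a' pl' S q →
        x (pl'.σ q) ≠ 0 → y (pl'.σ q) ≠ 0 → z (pl'.σ q) ≠ 0 →
        ∀ pl'', Ag pl' pl'' {q} → Kl2 a a' pl'' S (insert q Q)

/-- a split plane which is trivial where the curve is -/
structure Ra (e : Crv) (a : GQ →* M2) : Prop where
  dg : Dg a
  rs : Rs a e.S.toFinset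
  ker : ∀ g, rb e g = 1 → a g = 1

/-- the plane and its twist -/
def RSA : Prop := ∀ (e : Crv) (b : Fld e) a, Ra e a → Rs a (Sd b) ∧ Rs (tw (-b.δ') a) (Sd b) ∧
  Dg (tw (-b.δ') a) ∧ Nf (tw (-b.δ') a) ⊤ ∧ (∃ j, Ev a j ∧ Ev (tw (-b.δ') a) (j + 1)) ∧
  (Nf a ⊤ ∨ ∃ j, Tv a j) ∧ ∀ j, Tv a j → Ev (tw (-b.δ') a) (j + 1) ∧ ∀ Γ, ¬ Nf a Γ

end

/-- the primes which kill -/
structure G3 {e : Crv} (b : Fld e) (a : GQ →* M2) (pl : Pl) (m n : ℕ) (E : Finset ℕ) (q : ℕ) : Prop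
    extends Gt b n E q where
  up : ∀ i, U1 (![a, tw (-b.δ') a] i) pl (Sd b) q
  gq : Gq e m q

/-- **the supply of primes** -/
def CHVA : Prop := ∀ (e : Crv) (b : Fld e) a (pl : Pl), Ra e a → ∃ m : ℕ,
  ∀ n E, Sp3 ![a, tw (-b.δ') a] pl (G3 b a pl m n E)

/-- **the tower** -/
def TWVA : Prop := ∀ (e : Crv) (b : Fld e) a, Ra e a → Nf a ⊤ → ∃ (E : Finset ℕ) (d m : ℕ),
  ∀ (k : ℕ) (Q : Finset ℕ) (σ : ℕ → GQ), (∀ q ∈ Q, Gt b (k + d) E q ∧ Fq q (σ q)) →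
  ∃ (c : ℕ) (χ : GQ → ZMod (3 * 3 ^ k)), Lz b k c χ ∧
    (∀ q ∈ Q, q ∣ c ∧ ∀ g, 3 ∣ (χ (g * σ q * g⁻¹)).val) ∧ c.primeFactors.card ≤ Q.card + d ∧
    ∀ q : ℕ, q.Prime → q ∣ c → Gt b (k + 1) ∅ q ∧ (q ∈ Q ∨ Nq a q ∧ Gq e m q)

/-- **the last prime** -/
def LST : Prop := ∀ (e : Crv) (b : Fld e) a j, Ra e a → Tv a j → ∃ (E : Finset ℕ) (d m : ℕ),
  ∀ (k : ℕ) (Q : Finset ℕ) (pl : Pl) x y z, (∀ q ∈ Q, Gt b (k + d) E q) →
  Th a (tw (-b.δ') a) pl (Sd b ∪ Q) j x y z → ∃ q ∉ Q, G3 b a pl m (k + 1) ∅ q ∧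
    x (pl.σ q) ≠ 0 ∧ y (pl.σ q) ≠ 0 ∧ z (pl.σ q) ≠ 0 ∧ ∃ pl', Ag pl pl' {q} ∧
    ∃ (c : ℕ) (χ : GQ → ZMod (3 * 3 ^ k)), Lz b k c χ ∧ c.primeFactors = insert q Q ∧
      ∀ l ∈ insert q Q, ∀ g, 3 ∣ (χ (g * pl'.σ l * g⁻¹)).val

/-- a tower along which a power of `T` kills the cocycles -/
def Kz {e : Crv} (b : Fld e) (a : GQ →* M2) : Prop := ∃ k m i : ℕ, ∀ n,
  ∃ (c : ℕ) (χ : GQ → ZMod (3 * 3 ^ (n + 1))), Lz b (n + 1) c χ ∧ c.primeFactors.card ≤ k ∧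
    (∀ q : ℕ, q.Prime → q ∣ c → Gt b (n + 2) ∅ q ∧ Gq e m q) ∧ ∀ J ≤ 3 * 3 ^ (n + 1),
    ∀ x ∈ Zx a b.Γ (e.S.toFinset ∪ c.primeFactors) J (fun g => (χ g).val) (e.P 3),
      ∀ g, tb J ^ i • x g = 0

/-- **the export** -/
def KZ : Prop := ∀ (e : Crv) (b : Fld e) a, Ra e a → Kz b a

theorem ne1 : ∀ j : Fin 2, j ≠ j + 1 := by decide

theorem kza (hK : KILA) (hA : KLA) (hD : DSC2) (hL : LEV2) (hR : RSE) (hS : RSA) (hV : CHVA)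
    (hT : TWVA) (hY : LZY) {e : Crv} (b : Fld e) {a : GQ →* M2} (ra : Ra e a) (nf : Nf a ⊤) :
    Kz b a := by
  obtain ⟨-, ⟨pl, hp⟩, h⟩ := hR e
  obtain ⟨-, -, mem, out, cc, sq, -⟩ := h b
  obtain ⟨r1, r2, d2, n2, ⟨j, e1, e2⟩, -⟩ := hS e b a ra
  have rs : ∀ i, Rs (![a, tw (-b.δ') a] i) (Sd b) := Fin.forall_fin_two.2 ⟨r1, r2⟩
  obtain ⟨k, hk⟩ := hK (Fin 2) ![a, tw (-b.δ') a] ![j, j + 1] pl (Sd b) (by decide)
    (Fin.forall_fin_two.2 ⟨⟨r1, ra.dg, nf, e1⟩, r2, d2, n2, e2⟩)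
  obtain ⟨m, hm⟩ := hV e b a pl ra
  obtain ⟨E, d, m', hd⟩ := hT e b a ra nf
  refine ⟨k + d, m + m', 5, fun n => ?_⟩
  obtain ⟨Q, pl', ag, q1, q2, q3⟩ := hk _ (fun q g => g.up) (hm (n + 1 + d) E)
  have fq : ∀ q ∈ Q, Fq q (pl'.σ q) := fun q h =>
    ⟨_, pl'.ov q (q2 q h).pr, pl'.fb q (q2 q h).pr⟩
  have up := fun q h i => Md.u1_ag (rs i) ag h ((q2 q h).up i)
  obtain ⟨c, χ, lz, c1, c2, c3⟩ := hd (n + 1) Q pl'.σ fun q h => ⟨(q2 q h).toGt, fq q h⟩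
  have p3 : pl'.P pp = e.P 3 := (congrFun ag.1 _).trans (hp pp e.pm)
  have s : ∀ l ∈ e.S.toFinset ∪ Q, Sq b.Γ l := fun l m => (Finset.mem_union.1 m).elim
    (fun m => sq l (List.mem_toFinset.1 m)) fun m => (q2 l m).sq
  refine ⟨c, χ, lz, by omega, fun q h s => ⟨(c3 q h s).1, (c3 q h s).2.elim
    (fun a => (q2 q a).gq.mono (by omega)) fun a => a.2.mono (by omega)⟩, fun J l => ?_⟩
  have kk := hD a pl' _ _ _ _ _ Q ra.rs r2 Finset.subset_union_left mem out cc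
    (fun q h => (q2 q h).pr) s (.inl (hA _ _ pl' _ Q j (j + 1) r1 r2 ra.dg d2 (ne1 j)
      (fun q h => ⟨up q h 0, up q h 1⟩) (fun g i => tw_eq ((mem g).1
        (sq pp e.pm _ (pl'.ov _ pp_prime) i))) (q3 0) (q3 1)))
  exact hL a _ _ ra.rs _ c _ Q pl'.σ _ (Nat.succ_pos _) (hY e b _ c χ lz fun q h s => (c3 q h s).1)
    lz.one (e.ov _ e.pm) (fun q h => ⟨(c1 q h).1, fq q h, (up q h 0).fr, (c1 q h).2⟩)
    (fun q h s => (c3 q h s).2.imp_right And.left)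
    (p3 ▸ kk) J (l.trans_eq (pow_succ' _ _).symm)

theorem u1_of {a : GQ →* M2} {pl pl' : Pl} {S : Finset ℕ} {q l : ℕ} (r : Rs a S)
    (g : Ag pl pl' {q}) (u : U1 a pl S l) : U1 a pl' S l := by
  by_cases m : l ∈ ({q} : Finset ℕ)
  · exact Md.u1_ag r g m u
  · exact ⟨u.pr, u.out, g.2.2.1 l m ▸ u.fr⟩

theorem kzb (hK : KILB) (hD : DSC2) (hL : LEV2) (hR : RSE) (hS : RSA) (hV : CHVA)
    (hT : LST) (hY : LZY) {e : Crv} (b : Fld e) {a : GQ →* M2} (ra : Ra e a) {j : Fin 2}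
    (tv : Tv a j) : Kz b a := by
  obtain ⟨-, ⟨pl, hp⟩, h⟩ := hR e
  obtain ⟨-, -, mem, out, cc, sq, -⟩ := h b
  obtain ⟨r1, r2, d2, n2, -, -, ev⟩ := hS e b a ra
  have rs : ∀ i, Rs (![a, tw (-b.δ') a] i) (Sd b) := Fin.forall_fin_two.2 ⟨r1, r2⟩
  have dc : ∀ pl' : Pl, ∀ g ∈ dec (pl'.P pp), tw (-b.δ') a g = a g := fun pl' g i =>
    tw_eq ((mem g).1 (sq pp e.pm _ (pl'.ov _ pp_prime) i))
  obtain ⟨k, hk⟩ := hK a _ j pl (Sd b) r1 r2 ra.dg d2 tv n2 (ev j tv).1 (dc pl)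
  obtain ⟨m, hm⟩ := hV e b a pl ra
  obtain ⟨E, d, m', hd⟩ := hT e b a j ra tv
  refine ⟨k + 1, m + m', 5, fun n => ?_⟩
  obtain ⟨Q, pl', ag, q1, q2, x, y, z, th, q3⟩ := hk _ (fun q g => g.up) (hm (n + 2 + d) E)
  obtain ⟨q, qQ, g3, x0, y0, z0, pl'', ag', c, χ, lz, pf, c1⟩ := hd (n + 1) Q pl' x y z
    (fun q h => ⟨(q2 q h).pr, (q2 q h).nE, (q2 q h).md.of_dvd (pow_dvd_pow 3 (by omega)),
      (q2 q h).sq⟩) th
  have gt : ∀ l ∈ insert q Q, Gt b (n + 2) ∅ l ∧ Gq e (m + m') l ∧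
      ∀ i, U1 (![a, tw (-b.δ') a] i) pl'' (Sd b) l := fun l h => by
    rcases Finset.mem_insert.1 h with rfl | h
    · exact ⟨g3.toGt, g3.gq.mono (by omega), fun i => u1_of (rs i) ag' (g3.up i)⟩
    · exact ⟨⟨(q2 l h).pr, Finset.notMem_empty _, (q2 l h).md.of_dvd (pow_dvd_pow 3 (by omega)),
        (q2 l h).sq⟩, (q2 l h).gq.mono (by omega),
        fun i => u1_of (rs i) ag' (Md.u1_ag (rs i) ag h ((q2 l h).up i))⟩
  have mc : ∀ l : ℕ, l.Prime → l ∣ c → l ∈ insert q Q := fun l h s =>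
    pf ▸ Nat.mem_primeFactors.2 ⟨h, s, lz.sq.ne_zero⟩
  have p3 : pl''.P pp = e.P 3 :=
    ((congrFun ag'.1 _).trans (congrFun ag.1 _)).trans (hp pp e.pm)
  have s : ∀ l ∈ e.S.toFinset ∪ insert q Q, Sq b.Γ l := fun l m => (Finset.mem_union.1 m).elim
    (fun m => sq l (List.mem_toFinset.1 m)) fun m => (gt l m).1.sq
  refine ⟨c, χ, lz, pf ▸ (Finset.card_insert_le _ _).trans (by omega),
    fun l h s => ⟨(gt l (mc l h s)).1, (gt l (mc l h s)).2.1⟩, fun J l => ?_⟩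
  have kk := hD a pl'' _ _ _ _ _ (insert q Q) ra.rs r2 Finset.subset_union_left mem out cc
    (fun l h => (gt l h).1.pr) s
    (.inr ⟨(ev j tv).2 _, q3 q qQ (g3.up 0) (g3.up 1) x0 y0 z0 pl'' ag'⟩)
  exact hL a _ _ ra.rs _ c _ (insert q Q) pl''.σ _ (Nat.succ_pos _)
    (hY e b _ c χ lz fun l h s => (gt l (mc l h s)).1) lz.one (e.ov _ e.pm)
    (fun l h => ⟨Nat.dvd_of_mem_primeFactors (pf ▸ h), ⟨_, pl''.ov l (gt l h).1.pr,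
      pl''.fb l (gt l h).1.pr⟩, ((gt l h).2.2 0).fr, c1 l h⟩) (fun l h s => .inl (mc l h s))
    (p3 ▸ kk) J (l.trans_eq (pow_succ' _ _).symm)

/-- **the export** -/
theorem kz (hK : KILA) (hA : KLA) (hB : KILB) (hD : DSC2) (hL : LEV2) (hR : RSE)
    (hS : RSA) (hV : CHVA) (hT : TWVA) (hT' : LST) (hY : LZY) : KZ := fun e b a ra =>
  (hS e b a ra).2.2.2.2.2.1.elim (kza hK hA hD hL hR hS hV hT hY b ra)
    fun ⟨_, tv⟩ => kzb hB hD hL hR hS hV hT' hY b ra tv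

end Vale.Agent.P014Y.Rk
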