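import Vale.Agent.P014Y.Md.Kil
import Vale.Agent.P014Y.Rk.St

/-! # P014Y, split planes: the two coordinates (helper79) -/

set_option autoImplicit false
set_option linter.all false

noncomputable section

namespace Vale.Agent.P014Y.Rk

open NumberField Matrix Module
open scoped Classical
open Vale.Agent.P022 (Qb GQ)
open Vale.Agent.P022.H443 (inP)
open Vale.Agent.P022D.W (dec inP_le_dec phi_mem)
open Vale.Agent.P022E.GW (Ov Fb)
open Vale.Agent.P022K.G2 (d0)
open Vale.Agent.P014U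
open L2 (W M2 rh cu BB wp_skew)
open X4S (Pl)
open P004S (wp)
open Mu Mu.Li Md

section lin

variable {k X : Type} [Field k] [AddCommGroup X] [Module k X]

/-- isotropy bounds the sum of two ranks -/
theorem two_rk {T T' : Finset ℕ} {C B L : ℕ → Submodule k X} {β : ℕ → Bf k X}
    {Z A A' : Submodule k X} (q : Q0 T C B β Z) (ψ : ℕ → X →ₗ[k] k) (tt : T' ⊆ T)
    (hL : ∀ l ∈ T, L l ≤ C l) (h : ∀ l ∈ T, ∀ x ∈ L l, (l ∈ T' → ψ l x = 0) → x ∈ B l)
    (hA : A ≤ Z) (hA' : A' ≤ sl Z T L) : finrank k A + finrank k A' ≤ T'.card +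
      finrank k (sl A T fun l => ot (C l) (β l) (L l)) + finrank k (sl A' T B) := by
  haveI := q.zf
  haveI := Submodule.finiteDimensional_of_le hA
  haveI := Submodule.finiteDimensional_of_le (hA'.trans inf_le_left)
  have ex : ∀ l, ∃ u, u ∈ L l ∧ ∀ x ∈ L l, ψ l (x - ψ l x • u) = 0 := fun l => by
    by_cases e : ∀ x ∈ L l, ψ l x = 0
    · exact ⟨0, zero_mem _, fun x m => by simp [e x m]⟩
    · simp only [not_forall, exists_prop] at e
      obtain ⟨u, m, n⟩ := e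
      exact ⟨(ψ l u)⁻¹ • u, (L l).smul_mem _ m, fun x _ => by simp [n]⟩
  choose u u1 u2 using ex
  have b0 : ∀ l ∈ T, ∀ x ∈ B l, ∀ y ∈ C l, β l x y = 0 := fun l m x hx y hy => by
    have k := (q.lq l m).rad ▸ hx
    rw [(q.lq l m).sym x k.1 y hy, k.2 y hy]
  have key : ∀ l ∈ T, ∀ x ∈ L l, ∀ y ∈ C l,
      β l x y = if l ∈ T' then ψ l x * β l (u l) y else 0 := fun l m x hx y hy => by
    split_ifs with e
    · have := b0 l m _ (h l m _ (sub_mem hx ((L l).smul_mem _ (u1 l))) fun _ => u2 l x hx) y hy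
      rwa [map_sub, map_smul, LinearMap.sub_apply, sub_eq_zero] at this
    · exact b0 l m x (h l m x hx fun a => (e a).elim) y hy
  let Φ : X →ₗ[k] T' → k := LinearMap.pi fun l => β l (u l)
  let Ψ : X →ₗ[k] T' → k := LinearMap.pi fun l => ψ l
  have s : Lg.Sn (dotProductBilin k k : LinearMap.BilinForm k (T' → k)) :=
    ⟨dotProduct_comm, fun x e => dotProduct_eq_zero x e⟩
  have d := s.dim_perp (A'.map Ψ)
  have le := Submodule.finrank_mono (show A.map Φ ≤ LinearMap.BilinForm.orthogonal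
      (dotProductBilin k k) (A'.map Ψ) from by
    rintro _ ⟨y, hy, rfl⟩ _ ⟨x, hx, rfl⟩
    obtain ⟨x1, x2⟩ := mem_sl.1 (hA' hx)
    have := q.iso x x1 y (hA hy)
    rw [Finset.sum_congr rfl fun l m => key l m x (x2 l m) y (q.le l m (hA hy)),
      Finset.sum_ite_mem, Finset.inter_eq_right.2 tt, ← Finset.sum_coe_sort] at this
    exact this)
  have f1 := fr_add Φ A _ fun _ => (Submodule.mem_inf (p := A) (q := LinearMap.ker Φ))
  have f2 := fr_add Ψ A' _ fun _ => (Submodule.mem_inf (p := A') (q := LinearMap.ker Ψ))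
  haveI : Module.Finite k (sl A T fun l => ot (C l) (β l) (L l)) :=
    Submodule.finiteDimensional_of_le (S₂ := A) inf_le_left
  haveI : Module.Finite k (sl A' T B) := Submodule.finiteDimensional_of_le (S₂ := A') inf_le_left
  have l1 := Submodule.finrank_mono (show A ⊓ LinearMap.ker Φ ≤
      sl A T fun l => ot (C l) (β l) (L l) from fun y m => mem_sl.2 ⟨m.1, fun l n =>
    ⟨q.le l n (hA m.1), fun x hx => by
      rw [key l n x hx y (q.le l n (hA m.1))]
      split_ifs with e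
      · exact mul_eq_zero_of_right _ (congrFun m.2 ⟨l, e⟩)
      · rfl⟩⟩)
  have l2 := Submodule.finrank_mono (show A' ⊓ LinearMap.ker Ψ ≤ sl A' T B from fun x m =>
    mem_sl.2 ⟨m.1, fun l n => h l n x ((mem_sl.1 (hA' m.1)).2 l n) fun e => congrFun m.2 ⟨l, e⟩⟩)
  rw [Module.finrank_fintype_fun_eq_card, Fintype.card_coe] at d
  omega

end lin

variable [Pp]

/-- the projection of a vector -/
def pw (j : Fin 2) : W →ₗ[F] W := LinearMap.single F (fun _ => F) j ∘ₗ LinearMap.proj j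

/-- the projection of a function -/
def pj (j : Fin 2) : X →ₗ[F] X := (pw j).compLeft GQ

variable {a : GQ →* M2} {j : Fin 2} {x y z : X} {D : Subgroup GQ} {P : Ideal (𝓞 Qb)} {u v : W}
  {pl : Pl} {S Q T : Finset ℕ} {l : ℕ} {g : GQ}

theorem pj_ap (g : GQ) : pj j z g = pw j (z g) := rfl

theorem pw_self : pw j v j = v j := by simp [pw]

theorem pw_ne : pw j v (j + 1) = 0 := by fin_cases j <;> simp [pw]

theorem w_ext (h : u j = v j) (h' : u (j + 1) = v (j + 1)) : u = v :=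
  funext fun i => by fin_cases i <;> fin_cases j <;> assumption

theorem succ2 : j + 1 + 1 = j := by fin_cases j <;> rfl

theorem succ_ne : j + 1 ≠ j := by revert j; decide

theorem mem_cm : z ∈ Cm j ↔ ∀ g, z g (j + 1) = 0 :=
  ⟨fun h g => h g _ succ_ne, fun h g i n => by
    rw [(by decide : ∀ i j : Fin 2, i ≠ j → i = j + 1) i j n]; exact h g⟩

theorem pj_cm : pj j z ∈ Cm j := mem_cm.2 fun _ => pw_ne

theorem pj_of (h : z ∈ Cm j) : pj j z = z :=
  funext fun g => w_ext pw_self (pw_ne.trans (h g _ succ_ne).symm)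

theorem pj_of' (h : z ∈ Cm (j + 1)) : pj j z = 0 :=
  funext fun g => w_ext (pw_self.trans (h g _ succ_ne.symm)) pw_ne

theorem pj_add (z : X) (j : Fin 2) : pj j z + pj (j + 1) z = z := funext fun g => w_ext (j := j)
  (by rw [Pi.add_apply, Pi.add_apply, pj_ap, pw_self, pj_cm g _ succ_ne.symm, add_zero])
  (by rw [Pi.add_apply, Pi.add_apply, pj_ap, pj_ap, pw_self, pw_ne, zero_add])

theorem wp_pw : wp u (pw j v) = wp (pw (j + 1) u) v := by fin_cases j <;> simp [pw, wp]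

theorem wp_ln (hu : u (j + 1) = 0) (hv : v j = 0) (h : wp u v = 0) (n : v ≠ 0) : u = 0 := by
  have k : v (j + 1) ≠ 0 := fun e => n (w_ext hv e)
  refine w_ext (j := j) ?_ hu
  fin_cases j <;> simp_all [wp]

/-- stable under the projections -/
def Sp (M : Submodule F X) : Prop := ∀ j, ∀ z ∈ M, pj j z ∈ M

theorem Sp.inf {M N : Submodule F X} (p : Sp M) (q : Sp N) : Sp (M ⊓ N) :=
  fun j z m => ⟨p j z m.1, q j z m.2⟩

theorem Sp.sl {Z : Submodule F X} {L : ℕ → Submodule F X} (p : Sp Z) (q : ∀ l, Sp (L l)) :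
    Sp (sl Z T L) := fun j z m =>
  mem_sl.2 ⟨p j z (mem_sl.1 m).1, fun l n => q l j z ((mem_sl.1 m).2 l n)⟩

theorem Sp.fr {M : Submodule F X} (p : Sp M) [Module.Finite F M] (j : Fin 2) :
    finrank F M = finrank F ↥(M ⊓ Cm j) + finrank F ↥(M ⊓ Cm (j + 1)) := by
  rw [fr_add (pj j) M (M ⊓ Cm (j + 1)) fun z => and_congr_right fun _ =>
    ⟨pj_of', fun e => by rw [← pj_add z j, e, zero_add]; exact pj_cm⟩,
    show M.map (pj j) = M ⊓ Cm j from le_antisymm (by
      rintro _ ⟨z, m, rfl⟩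
      exact ⟨p j z m, pj_cm⟩) fun z m => ⟨z, m.1, pj_of m.2⟩]

theorem Sp.le {M N : Submodule F X} (p : Sp M) (j : Fin 2) (h : M ⊓ Cm j ≤ N)
    (h' : M ⊓ Cm (j + 1) ≤ N) : M ≤ N := fun z m =>
  pj_add z j ▸ add_mem (h ⟨p _ z m, pj_cm⟩) (h' ⟨p _ z m, pj_cm⟩)

variable (d : Dg a)
include d

theorem Dg.mv (g : GQ) (v : W) (j : Fin 2) : (a g *ᵥ v) j = a g j j * v j := by
  have := d g 0 1 (by decide)
  have := d g 1 0 (by decide)
  fin_cases j <;> simp [mulVec, dotProduct, *]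

theorem Dg.pw (g : GQ) (v : W) (j : Fin 2) : pw j (a g *ᵥ v) = a g *ᵥ pw j v :=
  w_ext (j := j) (by rw [pw_self, d.mv, d.mv, pw_self]) (by rw [pw_ne, d.mv, pw_ne, mul_zero])

theorem Dg.det (g : GQ) (j : Fin 2) : (a g).det = a g j j * a g (j + 1) (j + 1) := by
  rw [det_fin_two, d g 0 1 (by decide), zero_mul, sub_zero]
  fin_cases j
  exacts [rfl, mul_comm _ _]

theorem Dg.mul (g h : GQ) (j : Fin 2) : a (g * h) j j = a g j j * a h j j := by
  rw [map_mul]
  exact d.mv g (fun i => a h i j) j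

theorem Dg.ne (g : GQ) (j : Fin 2) : a g j j ≠ 0 := fun e => by
  have := d.mul g g⁻¹ j
  rw [mul_inv_cancel, map_one, e, zero_mul, one_apply_eq] at this
  exact one_ne_zero this

theorem Dg.tw (n : ℤ) : Dg (tw n a) := fun g i j h =>
  show (_ : F) * a g i j = 0 by rw [d g i j h, mul_zero]

theorem Dg.cl (D : Subgroup GQ) : Sp (Cl a D) := fun j z m =>
  ⟨fun g p h q => by rw [pj_ap, m.1 g p h q, map_add, d.pw]; rfl,
    m.2.imp fun U e => ⟨e.1, fun w p q => by rw [pj_ap, e.2 w p q, map_zero]⟩⟩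

theorem Dg.bl (D : Subgroup GQ) : Sp (Bl a D) := fun j z ⟨v, e⟩ =>
  ⟨Rk.pw j v, fun g m => by rw [pj_ap, e g m, Ul.d0_ap, Ul.d0_ap, map_sub, d.pw]⟩

theorem Dg.zg (T : Finset ℕ) : Sp (Zg a T) := fun j z m =>
  ⟨fun g p h q => by rw [pj_ap, m.1 g p h q, map_add, mulVecLin_apply, d.pw]; rfl,
    fun _ n => (n trivial).elim,
    m.2.2.imp fun U e => ⟨e.1, fun w p q => by rw [pj_ap, e.2 w p q, map_zero]⟩⟩

theorem Dg.vs (σ : GQ) : Sp (Vs a σ) := fun j z m => by
  obtain ⟨v, e⟩ := (mem_Vs a).1 m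
  exact (mem_Vs a).2 ⟨Rk.pw j v, by rw [pj_ap, ← e, map_sub, d.pw]⟩

theorem Dg.ur (P : Ideal (𝓞 Qb)) : Sp (Ur a P) := (d.cl _).inf (d.bl _)

theorem Dg.lc (pl : Pl) (Q : Finset ℕ) (l : ℕ) : Sp (Lc a pl Q l) := by
  unfold Lc
  split_ifs
  exacts [(d.cl _).inf (d.vs _), d.ur _]

theorem Dg.cu (x y : X) (j : Fin 2) : cu a x (pj j y) = cu a (pj (j + 1) x) y :=
  funext fun g => funext fun h => by rw [L2.cu, L2.cu, pj_ap, pj_ap, ← d.pw, wp_pw]

theorem Dg.ot {L : Submodule F X} (p : Sp L) : Sp (Ot a D L) := fun j y m =>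
  ⟨d.cl _ j y m.1, fun x n => d.cu x y j ▸ m.2 _ (p _ x n)⟩

theorem Dg.st (pl : Pl) (S Q : Finset ℕ) : Sp (St a pl S Q) :=
  ((d.zg _).sl (d.lc pl Q)).inf (d.ur _)

theorem Dg.rl (pl : Pl) (S Q : Finset ℕ) : Sp (Rl a pl S Q) :=
  ((d.zg _).sl (d.lc pl Q)).inf (d.ot (d.ur _))

/-- unramified classes with values in a line -/
theorem Dg.ur_bl (r : R0 a) (o : Ov l P) {φ : GQ} (f : Fb l P φ) (hx : x ∈ Ur a P) (c : x ∈ Cm j)
    (h : (∀ g ∈ dec P, a g j j = 1) → x φ j = 0) : x ∈ Bl a (dec P) := by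
  obtain ⟨y, y1, y2, y3⟩ := Ul.ur_ex r hx
  have m := phi_mem o.1 o.2.1 f
  replace y2 := d.bl _ j _ y2
  rw [map_sub, pj_of c] at y2
  replace y3 : ∀ s ∈ inP P, pj j y s = 0 := fun s n => by rw [pj_ap, y3 s n, map_zero]
  replace y1 := d.cl _ j y y1
  have c' := mem_cm.1 (pj_cm : pj j y ∈ Cm j)
  generalize pj j y = y at y1 y2 y3 c'
  have fx := fun s n => Ul.fix_in y1 y3 m (s := s) n
  suffices k : y ∈ Bl a (dec P) by simpa using add_mem y2 k
  by_cases e : a φ j j = 1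
  · refine Ul.bl_of (Ul.van o f y1 y3 (w_ext (j := j) ?_ (c' φ)))
    by_cases e' : ∀ g ∈ dec P, a g j j = 1
    · obtain ⟨v, k⟩ := y2
      have := congrFun (k φ m) j
      rw [Ul.d0_ap, Pi.sub_apply, Pi.sub_apply, Pi.sub_apply, d.mv, e, h e'] at this
      simpa using this
    · simp only [not_forall, exists_prop] at e'
      obtain ⟨g, n, k⟩ := e'
      have := congrFun (Ul.fix_dec r o f fx (w_ext (j := j) (by rw [d.mv, e, one_mul])
        (by rw [d.mv, c' φ, mul_zero])) g n) j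
      rw [d.mv] at this
      exact by_contra fun b => k (mul_right_cancel₀ b (this.trans (one_mul _).symm))
  · have k := Ul.van o f (sub_mem y1 (Ul.bl_le r _ (Ul.d0_bl _ ((a φ j j - 1)⁻¹ • y φ))))
      (fun s n => by rw [Pi.sub_apply, y3 s n, Ul.d0_ap, mulVec_smul, fx s n, sub_self, sub_self])
      (by
        rw [Pi.sub_apply, Ul.d0_ap, mulVec_smul, ← smul_sub, sub_eq_zero]
        refine w_ext (j := j) ?_ ?_
        · rw [Pi.smul_apply, Pi.sub_apply, d.mv, ← sub_one_mul, smul_eq_mul,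
            inv_mul_cancel_left₀ (sub_ne_zero.2 e)]
        · rw [Pi.smul_apply, Pi.sub_apply, d.mv, c' φ, mul_zero, sub_zero, smul_zero])
    exact ⟨_, fun g n => sub_eq_zero.1 (k g n)⟩

end Vale.Agent.P014Y.Rk
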