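import Vale.Agent.P014Y.Rk.St
import Vale.Agent.P014Y.Md.Sup

/-! # P014Y, block RK: classes of characters on a small subgroup -/

set_option autoImplicit false
set_option linter.all false

noncomputable section

namespace Vale.Agent.P014Y.Rk.Cv

open NumberField Matrix
open Vale.Agent.P022 (Qb GQ)
open Vale.Agent.P022.H443 (inP)
open Vale.Agent.P022E.GW (Ov Fb)
open Vale.Agent.P022K.G2 (In Lv)
open Vale.Agent.P014U
open L2 (W M2)
open X4S (Pl Rp Rep)
open P014U.Mu.Sa (Z1 B1)
open P014T.Dr (Hm Hm_le Hm_open Ha_le inert_Hm)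
open P014Y.Mu P014Y.Mu.Cv

/-- **independence of the classes of different characters** -/
theorem all {p : ℕ} [Fact p.Prime] {G ι : Type} [Group G] [Finite ι]
    {a : ι → G →* Matrix (Fin 2) (Fin 2) (ZMod p)} {z : ι → G → Fin 2 → ZMod p}
    (hz : ∀ i, Z1 (a i) (z i)) (θ : ι → G → ZMod p) (ei : ∀ i g h, a i g *ᵥ z i h = θ i g • z i h)
    (df : ∀ i j, i ≠ j → ∃ g, θ i g ≠ θ j g) {U : Subgroup G} (n : U.Normal) :
    ∃ g ∈ U, (∀ i, a i g = 1) ∧ ∀ i, (∃ u ∈ U, (∀ i, a i u = 1) ∧ z i u ≠ 0) → z i g ≠ 0 := by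
  classical
  have := Fintype.ofFinite ι
  have k i (s : Finset ι) : ∃ v ∈ vl hz U, ((∃ u ∈ U, (∀ i, a i u = 1) ∧ z i u ≠ 0) → v i ≠ 0) ∧
      ∀ j ∈ s, j ≠ i → v j = 0 := by
    induction s using Finset.induction_on with
    | empty =>
      by_cases h : ∃ u ∈ U, (∀ i, a i u = 1) ∧ z i u ≠ 0
      · obtain ⟨u, m, e, f⟩ := h
        exact ⟨_, ⟨u, m, e, fun _ => rfl⟩, fun _ => f, by simp⟩
      · exact ⟨0, zero_mem _, fun c => (h c).elim, by simp⟩
    | insert j s _ ih =>
      obtain ⟨v, m, v0, h⟩ := ih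
      by_cases ji : j = i
      · exact ⟨v, m, v0, Finset.forall_mem_insert _ _ _ |>.2 ⟨fun q => (q ji).elim, h⟩⟩
      obtain ⟨g, d⟩ := df i j (Ne.symm ji)
      have e l : a l g *ᵥ v l = θ l g • v l := by
        obtain ⟨u, -, -, f⟩ := m
        rw [← f, ei]
      refine ⟨_, sub_mem (vl_st hz n g m) (ZMod.smul_mem m (θ j g)), fun c q => v0 c ?_,
        Finset.forall_mem_insert _ _ _ |>.2 ⟨fun _ => ?_, fun l ml q => by simp [h l ml q]⟩⟩
      · rw [Pi.sub_apply, Pi.smul_apply, e, ← sub_smul] at q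
        exact (smul_eq_zero.1 q).resolve_left (sub_ne_zero.2 d)
      · rw [Pi.sub_apply, Pi.smul_apply, e, sub_self]
  choose v m v0 h using fun i => k i Finset.univ
  obtain ⟨g, gU, g1, gz⟩ : ∑ i, v i ∈ vl hz U := sum_mem fun i _ => m i
  refine ⟨g, gU, g1, fun i c => ?_⟩
  rw [gz, Finset.sum_apply, Finset.sum_eq_single i
    (fun j _ q => h j i (Finset.mem_univ _) q.symm) (by simp)]
  exact v0 i c

variable [Pp] {a : GQ →* M2} {j : Fin 2} {z : X}

theorem dg_mv (d : Dg a) (g : GQ) (v : W) (i : Fin 2) : (a g *ᵥ v) i = a g i i * v i := by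
  rw [mulVec, dotProduct, Finset.sum_eq_single i (fun l _ n => by rw [d g i l n.symm, zero_mul])
    (by simp)]

theorem dg_mul (d : Dg a) (g h : GQ) (i : Fin 2) : a (g * h) i i = a g i i * a h i i := by
  rw [map_mul, mul_apply, Finset.sum_eq_single i (fun l _ n => by rw [d g i l n.symm, zero_mul])
    (by simp)]

theorem dg_one (d : Dg a) {g : GQ} (h : ∀ i, a g i i = 1) : a g = 1 := Matrix.ext fun i l => by
  by_cases e : i = l
  · rw [← e, h, one_apply_eq]
  · rw [d g i l e, one_apply_ne e]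

/-- the character -/
def ch (d : Dg a) (i : Fin 2) : GQ →* F where
  toFun g := a g i i
  map_one' := by rw [map_one, one_apply_eq]
  map_mul' g h := dg_mul d g h i

theorem dg_cm (d : Dg a) (g h : GQ) : a (g * h * g⁻¹ * h⁻¹) = 1 := dg_one d fun i => by
  show ch d i _ = 1
  rw [map_mul, map_mul, map_mul, mul_right_comm (ch d i g), ← map_mul, mul_inv_cancel, map_one,
    one_mul, ← map_mul, mul_inv_cancel, map_one]

theorem dg_pw (d : Dg a) (g : GQ) : a (g ^ (pp - 1)) = 1 := dg_one d fun i => by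
  show ch d i _ = 1
  rw [map_pow]
  exact ZMod.pow_card_sub_one_eq_one ((Group.isUnit g).map (ch d i)).ne_zero

theorem cm_mv (d : Dg a) (c : z ∈ Cm j) (g h : GQ) : a g *ᵥ z h = a g j j • z h := funext fun i => by
  rw [dg_mv d, Pi.smul_apply, smul_eq_mul]
  by_cases e : i = j
  · rw [e]
  · rw [c h i e, mul_zero, mul_zero]

/-- **restriction to a small subgroup is injective** -/
theorem inj1 (d : Dg a) {pl : Pl} {T : Finset ℕ} (t : Ty a pl T j z) {U : Set GQ} {n m : ℕ}
    (cm : ∀ g h, g * h * g⁻¹ * h⁻¹ ∈ U) (m0 : ¬ pp ∣ m) (pw : ∀ h ∈ Hm (pp ^ n), h ^ m ∈ U)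
    (h : ∀ u ∈ U, z u = 0) : z ∈ Bl a ⊤ := by
  have co : Z1 a z := fun g g' => t.1.1.1 g trivial g' trivial
  have ce (g h : GQ) : z (g * h) = z g + a g j j • z h := by rw [co, cm_mv d t.1.2]
  by_cases tv : Tv a j
  · simp only [tv _, one_smul] at ce
    let f : GQ →* Multiplicative W := MonoidHom.mk' (fun g => .ofAdd (z g)) ce
    have le : Hm (pp ^ n) ≤ f.ker := fun g k => by
      have : f g ^ m = 1 := by rw [← map_pow]; exact h _ (pw g k)
      have e : (m : F) • z g = 0 := by rw [Nat.cast_smul_eq_nsmul]; exact this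
      exact (smul_eq_zero.1 e).resolve_left (mt (ZMod.natCast_eq_zero_iff _ _).1 m0)
    have o := pl.ov pp pp_prime
    obtain ⟨v, e⟩ := (t.2 tv).2
    have := P022K.CH.mink_top f.ker (Subgroup.isOpen_mono le (Hm_open (pow_ne_zero n pp_ne)))
      fun l P o' g i => by
        by_cases lp : l = pp
        · subst lp
          obtain ⟨s, k, -⟩ := P004S.ex_conj o o'
          refine (f.normal_ker.mem_comm_iff (a := g * s) (b := s⁻¹)).2 ?_ |> fun q => by simpa using q
          rw [← mul_assoc]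
          show z _ = 0
          funext l
          by_cases lj : l = j
          · rw [e _ (k g i), lj]
            show (a _ *ᵥ v) j - v j = 0
            rw [dg_mv d, tv, one_mul, sub_self]
          · exact t.1.2 _ l lj
        · exact le (inert_Hm o' (Dr.nd_two o' lp n) i)
    exact ⟨0, fun g _ => (show z g = 0 from this.ge trivial).trans (by simp)⟩
  · obtain ⟨c, hc⟩ := not_forall.1 tv
    refine ⟨(a c j j - 1)⁻¹ • z c, fun g _ => ?_⟩
    have k : z (g * c) = z (c * g) := by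
      rw [show g * c = c * g * (g⁻¹ * c⁻¹ * g⁻¹⁻¹ * c⁻¹⁻¹) by group, co, h _ (cm _ _), mulVec_zero,
        add_zero]
    rw [ce, ce] at k
    show z g = a g *ᵥ _ - _
    rw [mulVec_smul, cm_mv d t.1.2, ← smul_sub, eq_inv_smul_iff₀ (sub_ne_zero.2 hc), sub_smul,
      one_smul]
    linear_combination (exp := 1) -k

end Vale.Agent.P014Y.Rk.Cv
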