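import Vale.Agent.P014Y.Rk.Stp
import Vale.Agent.P014Y.Rk.Bal

/-! # P014Y, split planes: killing with a trivial character (helper79) -/

set_option autoImplicit false
set_option linter.all false

noncomputable section

namespace Vale.Agent.P014Y.Rk

open NumberField Matrix Module
open scoped Classical
open Vale.Agent.P022 (Qb GQ)
open Vale.Agent.P022D.W (dec)
open Vale.Agent.P014U
open L2 (W M2)
open X4S (Pl)
open Mu Mu.Gw Md Md.Gm Md.Ki
open Bo (Kl2)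

variable [Pp]

namespace Kr

variable {q : ℕ} {a a' : GQ →* M2} {S Q : Finset ℕ} {pl pl' : Pl} {j : Fin 2} {x y z : X}

theorem ag_up (g : Ag pl pl' Q) (nq : q ∉ Q) (n : q ≠ pp) (b : ℕ) :
    Ag pl (up pl' q b) (insert q Q) := by
  obtain ⟨a1, a2, a3, a4⟩ := g
  refine ⟨a1, a2, fun l m => ?_, fun l m => ?_⟩
  · rw [Finset.mem_insert, not_or] at m
    exact (up_ne m.1).trans (a3 l m.2)
  · by_cases k : l = q
    · exact ⟨b, by rw [k, up_eq n, a3 q nq, show pl'.τ = pl.τ from a2]⟩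
    · rw [up_ne k]
      exact a4 l ((Finset.mem_insert.1 m).resolve_left k)

theorem nt1 (r : Rs a S) (d : Dg a) (e : Ev a j) : ¬ Tv a (j + 1) := fun t => by
  obtain ⟨c, k, e⟩ := e
  have := Rz.pc d r.toR0 k j
  rw [e, t c, one_mul, eq_neg_iff_add_eq_zero, one_add_one_eq_two] at this
  exact two_ne this

variable (r : Rs a S) (d : Dg a) (u : ∀ q ∈ Q, U1 a pl S q)
include r d u

/-- the pair of the trivial character -/
theorem p1 (t : Tv a j) (e : Ev a j) : (St a pl S Q ⊓ Cm j ≤ Bl a ⊤ ↔ dm (St a pl S Q) j = 0) ∧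
    (Rl a pl S Q ⊓ Cm (j + 1) ≤ Bl a ⊤ ↔ dm (St a pl S Q) j = 0) := by
  obtain ⟨g1, g2, g3, -⟩ := gwl1 a pl S Q r u
  haveI := Submodule.finiteDimensional_of_le g3
  rw [dead g2, dead (g2.trans g3), fb0 d t, fb1 d (nt1 r d e),
    show dm (Rl a pl S Q) (j + 1) = dm (St a pl S Q) j + 1 from (bal a pl S Q j r d u e).2]
  omega

/-- the unbalanced pair -/
theorem p2 (n : Nf a ⊤) (e : Ev a (j + 1)) :
    dm (Rl a pl S Q) j = dm (St a pl S Q) (j + 1) + 1 ∧ 1 ≤ dm (St a pl S Q) (j + 1) ∧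
    (St a pl S Q ⊓ Cm (j + 1) ≤ Bl a ⊤ ↔ dm (St a pl S Q) (j + 1) ≤ 1) ∧
    ∃ z ∈ Rl a pl S Q ⊓ Cm j, z ∉ Bl a ⊤ := by
  obtain ⟨g1, g2, g3, -⟩ := gwl1 a pl S Q r u
  haveI := Submodule.finiteDimensional_of_le g3
  have b := (bal a pl S Q _ r d u e).2
  rw [succ2] at b
  replace b : dm (Rl a pl S Q) j = dm (St a pl S Q) (j + 1) + 1 := b
  have l := dm_le (j := j + 1) g2
  rw [fb1 d (nt d n _)] at l
  refine ⟨b, l, by rw [dead g2, fb1 d (nt d n _)], SetLike.not_le_iff_exists.1 ?_⟩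
  rw [dead (g2.trans g3), fb1 d (nt d n _)]
  omega

/-- two dead groups leave at most a line -/
theorem kl2 (r' : Rs a' S) (d' : Dg a') (u' : ∀ q ∈ Q, U1 a' pl S q) (t : Tv a j) (n : Nf a' ⊤)
    (e : Ev a j) (e' : Ev a' (j + 1)) (dc : ∀ g ∈ dec (pl.P pp), a' g = a g)
    (k : dm (St a pl S Q) j = 0) (k' : dm (St a' pl S Q) (j + 1) ≤ 1) : Kl2 a a' pl S Q := by
  obtain ⟨b1, b2⟩ := p1 r d u t e
  obtain ⟨b3, -, b4, -⟩ := p2 r' d' u' n e'
  have up : ∀ x ∈ Rl a pl S Q, ∀ y ∈ Rl a' pl S Q, x + y ∈ Ur a (pl.P pp) →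
      pj (j + 1) x ∈ Bl a ⊤ ∧ pj (j + 1) y ∈ Bl a' ⊤ := fun x hx y hy w => by
    have m := b2.2 k ⟨d.rl pl S Q _ x hx, pj_cm⟩
    have := sub_mem (d.ur _ (j + 1) _ w) (Ka.bl_ur r.toR0 m)
    rw [map_add, add_sub_cancel_left] at this
    exact ⟨m, b4.2 k' ⟨⟨(d'.rl pl S Q _ y hy).1, Ka.ur_congr dc this⟩, pj_cm⟩⟩
  have lo : ∀ x ∈ Rl a pl S Q, ∀ y ∈ Rl a' pl S Q, x + y ∈ Ur a (pl.P pp) → pj j y ∈ Bl a' ⊤ →
      x ∈ Bl a ⊤ ∧ y ∈ Bl a' ⊤ := fun x hx y hy w m => by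
    have := sub_mem (d.ur _ j _ w) (Ka.ur_congr (fun g p => (dc g p).symm) (Ka.bl_ur r'.toR0 m))
    rw [map_add, add_sub_cancel_right] at this
    exact ⟨pj_add x j ▸ add_mem (b1.2 k ⟨⟨(d.rl pl S Q _ x hx).1, this⟩, pj_cm⟩) (up x hx y hy w).1,
      pj_add y j ▸ add_mem m (up x hx y hy w).2⟩
  by_cases o : ∃ x ∈ Rl a pl S Q, ∃ y ∈ Rl a' pl S Q, x + y ∈ Ur a (pl.P pp) ∧ pj j y ∉ Bl a' ⊤
  · obtain ⟨z, hz, z', hz', w', nb⟩ := o
    obtain ⟨f, f1, f2⟩ := fn1 nb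
    obtain ⟨g1, g2, g3, -⟩ := gwl1 a' pl S Q r' u'
    have l1 := fr2 (inf_le_left : Rl a' pl S Q ⊓ Cm j ⊓ LinearMap.ker f ≤ _)
      ⟨d'.rl pl S Q _ z' hz', pj_cm⟩ fun p => one_ne_zero (f2.symm.trans p.2)
    have l2 : Bl a' ⊤ ⊓ Cm j = Rl a' pl S Q ⊓ Cm j ⊓ LinearMap.ker f :=
      Submodule.eq_of_le_of_finrank_le (fun x m => ⟨⟨g3 (g2 m.1), m.2⟩, f1 m.1⟩) (by
        have := fb1 d' (nt d' n j)
        change finrank F _ < dm _ j at l1
        change finrank F _ ≤ dm _ j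
        omega)
    refine ⟨z, z', fun x hx y hy w => ⟨f (pj j y), ?_⟩⟩
    have hy' := sub_mem hy (Submodule.smul_mem _ (f (pj j y)) hz')
    refine lo _ (sub_mem hx (Submodule.smul_mem _ _ hz)) _ hy' ?_ (l2.ge ⟨⟨d'.rl pl S Q _ _ hy',
      pj_cm⟩, show f _ = 0 by rw [map_sub, map_sub, map_smul, map_smul, f2]; simp⟩).1
    rw [sub_add_sub_comm, ← smul_add]
    exact sub_mem w (Submodule.smul_mem _ _ w')
  · simp only [not_exists, not_and, not_not] at o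
    exact ⟨0, 0, fun x hx y hy w => ⟨0, by simpa using lo x hx y hy w (o x hx y hy w)⟩⟩

end Kr

open Kr in
/-- **row KILB** -/
theorem kilb : KILB := by
  intro a a' j pl S r r' d d' tv n e' dc
  have e : Ev a j := e'.imp fun c k => ⟨k.1, tv c⟩
  have rs : ∀ i, Rs (![a, a'] i) S := Fin.forall_fin_two.2 ⟨r, r'⟩
  let μ : ℕ → ℕ → ℕ := fun x y => (x - 1) + (1 - x) + 2 * y
  refine ⟨μ (dm (St a pl S ∅) j) (dm (St a' pl S ∅) (j + 1)), fun G hG sp => ?_⟩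
  obtain ⟨⟨⟨Q, pl'⟩, ag, g⟩, k, k1, k2⟩ := desc
    (T := {p : Finset ℕ × Pl // Ag pl p.2 p.1 ∧ ∀ q ∈ p.1, G q})
    (fun t => μ (dm (St a t.1.2 S t.1.1) j) (dm (St a' t.1.2 S t.1.1) (j + 1))) (fun t => t.1.1.card)
    (fun t => dm (St a t.1.2 S t.1.1) j = 1 ∧ dm (St a' t.1.2 S t.1.1) (j + 1) ≤ 1)
    (fun ⟨⟨Q, pl'⟩, ag, g⟩ al => by
      have u : ∀ q ∈ Q, U1 a pl' S q := fun q m => u1_any r ag (hG q (g q m) 0)
      have u' : ∀ q ∈ Q, U1 a' pl' S q := fun q m => u1_any r' ag (hG q (g q m) 1)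
      obtain ⟨b1, b2⟩ := p1 r d u tv e
      obtain ⟨-, b3, b4, z, hz, nz⟩ := p2 r' d' u' n e'
      have g3 := (gwl1 a pl' S Q r u).2.2.1
      have g3' := (gwl1 a' pl' S Q r' u').2.2.1
      have ex : ∀ M B : Submodule F X, ∃ x ∈ M, ¬ M ≤ B → x ∉ B := fun M B => by
        by_cases k : M ≤ B
        · exact ⟨0, zero_mem _, fun o => (o k).elim⟩
        · exact (SetLike.not_le_iff_exists.1 k).imp fun _ p => ⟨p.1, fun _ => p.2⟩
      obtain ⟨x, hx, nx⟩ := ex (St a pl' S Q ⊓ Cm j) (Bl a ⊤)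
      obtain ⟨y, hy, ny⟩ := ex (Rl a pl' S Q ⊓ Cm (j + 1)) (Bl a ⊤)
      obtain ⟨w, hw, nw⟩ := ex (St a' pl' S Q ⊓ Cm (j + 1)) (Bl a' ⊤)
      have sj := succ_ne (j := j)
      obtain ⟨q, nq, gq, h⟩ := sp (S ∪ Q) ![fun i => if i = j then x else y,
        fun i => if i = j then z else w] (fun i => rs_u1 (rs i) fun x m => hG x (g x m) i)
        (Fin.forall_fin_two.2 ⟨fun i => by
          rcases (by decide : ∀ j i : Fin 2, i = j ∨ i = j + 1) j i with rfl | rfl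
          · simpa using show Ty a pl (S ∪ Q) _ x from ⟨⟨hx.1.1.1, hx.2⟩, fun _ => ag.1 ▸ hx.1.2⟩
          · simpa [sj] using show Ty a pl (S ∪ Q) _ y from
              ⟨⟨hy.1.1.1, hy.2⟩, fun t => (nt1 r d e t).elim⟩,
          fun i => by
          rcases (by decide : ∀ j i : Fin 2, i = j ∨ i = j + 1) j i with rfl | rfl
          · simpa using show Ty a' pl (S ∪ Q) _ z from
              ⟨⟨hz.1.1.1, hz.2⟩, fun t => (nt d' n _ t).elim⟩
          · simpa [sj] using show Ty a' pl (S ∪ Q) _ w from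
              ⟨⟨hw.1.1.1, hw.2⟩, fun t => (nt d' n _ t).elim⟩⟩)
      have nQ : q ∉ Q := fun m => nq (Finset.mem_union_right _ m)
      rw [← show pl'.σ q = pl.σ q from ag.2.2.1 q nQ] at h
      have x0 : x ∉ Bl a ⊤ → x (pl'.σ q) ≠ 0 := by simpa using h 0 j
      have y0 : y ∉ Bl a ⊤ → y (pl'.σ q) ≠ 0 := by simpa [sj] using h 0 (j + 1)
      have z0 : z ∉ Bl a' ⊤ → z (pl'.σ q) ≠ 0 := by simpa using h 1 j
      have w0 : w ∉ Bl a' ⊤ → w (pl'.σ q) ≠ 0 := by simpa [sj] using h 1 (j + 1)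
      have uq : U1 a pl' S q := u1_any r ag (hG q gq 0)
      have uq' : U1 a' pl' S q := u1_any r' ag (hG q gq 1)
      have s := sd r u uq nQ
      have s' := sd r' u' uq' nQ
      rw [← succ2 (j := j)] at hz
      suffices k : ∃ b : F, μ (dm (St a (up pl' q b.val) S (insert q Q)) j)
          (dm (St a' (up pl' q b.val) S (insert q Q)) (j + 1)) <
          μ (dm (St a pl' S Q) j) (dm (St a' pl' S Q) (j + 1)) from k.elim fun b lt =>
        ⟨⟨(insert q Q, up pl' q b.val), ag_up ag nQ (np r uq) _,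
          (Finset.forall_mem_insert _ _ _).2 ⟨gq, g⟩⟩, Finset.card_insert_le _ _, lt⟩
      simp only [st_nat r u uq nQ, st_nat r' u' uq' nQ, μ, ZMod.natCast_zmod_val]
      have le := c1_le s' hz (z0 nz)
      by_cases o : dm (St a pl' S Q) j = 0
      · obtain ⟨b, hb⟩ := bad r u uq nQ d (b1.2 o) (b2.2 o)
        haveI := s.fn (b := b)
        replace hb := (dead (M := Gm.nw _ (ev _) (ev _) b) s.bn).not.1 hb
        rw [fb0 d tv] at hb
        have := c3 s b j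
        have := le b
        exact ⟨b, by omega⟩
      have := c1_eq s hy (y0 (ny (b2.not.2 o))) hx (x0 (nx (b1.not.2 o))) 0
      have := le 0
      refine ⟨0, ?_⟩
      by_cases o' : dm (St a' pl' S Q) (j + 1) ≤ 1
      · have : dm (St a pl' S Q) j ≠ 1 := fun p => al ⟨p, o'⟩
        omega
      · have := c1_eq s' hz (z0 nz) hw (w0 (nw (b4.not.2 o'))) 0
        omega) _
    ⟨(∅, pl), ⟨rfl, rfl, fun _ _ => rfl, fun _ m => (Finset.notMem_empty _ m).elim⟩,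
      fun _ m => (Finset.notMem_empty _ m).elim⟩ le_rfl
  have u : ∀ q ∈ Q, U1 a pl' S q := fun q m => u1_any r ag (hG q (g q m) 0)
  have u' : ∀ q ∈ Q, U1 a' pl' S q := fun q m => u1_any r' ag (hG q (g q m) 1)
  replace k1 : dm (St a pl' S Q) j = 1 := k1
  replace k2 : dm (St a' pl' S Q) (j + 1) ≤ 1 := k2
  obtain ⟨b1, b2⟩ := p1 r d u tv e
  obtain ⟨-, -, -, z, hz, nz⟩ := p2 r' d' u' n e'
  obtain ⟨x, hx, nx⟩ := SetLike.not_le_iff_exists.1 (b1.not.2 (by omega))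
  obtain ⟨y, hy, ny⟩ := SetLike.not_le_iff_exists.1 (b2.not.2 (by omega))
  refine ⟨Q, pl', ag, by simpa using k, g, x, y, z, ⟨⟨⟨⟨hx.1.1.1, hx.2⟩, fun _ => hx.1.2⟩, nx⟩,
    ⟨⟨⟨hy.1.1.1, hy.2⟩, fun t => (nt1 r d e t).elim⟩, ny⟩,
    ⟨⟨⟨hz.1.1.1, hz.2⟩, fun t => (nt d' n _ t).elim⟩, nz⟩⟩, fun q nQ uq uq' x0 y0 z0 pl'' ag' => ?_⟩
  rw [← succ2 (j := j)] at hz
  have v : ∀ {c : GQ →* M2}, Rs c S → (∀ q ∈ Q, U1 c pl' S q) → U1 c pl' S q →
      ∀ l ∈ insert q Q, U1 c pl'' S l := fun r u uq l m =>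
    u1_any r ag' ((Finset.forall_mem_insert _ _ _).2 ⟨uq, u⟩ l m)
  have v1 := v r u uq
  have v2 := v r' u' uq'
  obtain ⟨b, rfl⟩ := up_of ag' (np r uq)
  refine kl2 r d v1 r' d' v2 tv n e e' (fun g m => dc g (ag.1 ▸ m)) ?_ ?_
  · have := c1_eq (sd r u uq nQ) hy y0 hx x0 b
    rw [st_nat r u uq nQ]
    omega
  · rw [st_nat r' u' uq' nQ]
    exact (c1_le (sd r' u' uq' nQ) hz z0 b).trans k2

end Vale.Agent.P014Y.Rk
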