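import Vale.Agent.P014Y.Rk.Cm
import Vale.Agent.P014Y.Rk.Kla
import Vale.Agent.P014Y.Rk.Rsa

/-! # P014Y, split planes: one more prime (helper79) -/

set_option autoImplicit false
set_option linter.all false

noncomputable section

namespace Vale.Agent.P014Y.Rk

open NumberField Matrix Module
open scoped Classical
open Vale.Agent.P022 (Qb GQ)
open Vale.Agent.P022D.W (dec inP_le_dec phi_mem)
open Vale.Agent.P022K.G2 (d0)
open Vale.Agent.P014U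
open L2 (W M2 rh wp_skew)
open X4S (Pl)
open P004S (wp)
open Mu Mu.Lo Mu.Li Mu.Gw Md Md.Lo Md.Gm Md.Ki

variable [Pp]

/-- the two separated counts -/
def BAL : Prop := ∀ a pl S Q j, Rs a S → Dg a → (∀ q ∈ Q, U1 a pl S q) → Ev a j →
  finrank F ↥(Rl a pl S Q ⊓ Cm j) = finrank F ↥(St a pl S Q ⊓ Cm (j + 1)) ∧
  finrank F ↥(Rl a pl S Q ⊓ Cm (j + 1)) = finrank F ↥(St a pl S Q ⊓ Cm j) + 1

namespace Kr

theorem desc {T : Type} (μ c : T → ℕ) (P : T → Prop)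
    (h : ∀ t, ¬ P t → ∃ t', c t' ≤ c t + 1 ∧ μ t' < μ t) (n : ℕ) :
    ∀ t, μ t ≤ n → ∃ t', c t' ≤ c t + n ∧ P t' := by
  induction n with
  | zero => exact fun t e => ⟨t, le_rfl, by_contra fun k => by obtain ⟨_, -, l⟩ := h t k; omega⟩
  | succ n ih =>
    intro t e
    by_cases k : P t
    · exact ⟨t, Nat.le_add_right _ _, k⟩
    obtain ⟨s, a, b⟩ := h t k
    obtain ⟨t', a', b'⟩ := ih s (by omega)
    exact ⟨t', by omega, b'⟩

/-- the value -/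
abbrev ev (σ : GQ) : X →ₗ[F] W := LinearMap.proj σ

/-- the dimension of a component -/
def dm (M : Submodule F X) (j : Fin 2) : ℕ := finrank F ↥(M ⊓ Cm j)

section lin

variable {B A R Y M : Submodule F X} {σ τ : GQ} {j : Fin 2} {x y z w : X} {b b' : F}

theorem v0 (c : x ∈ Cm j) (e : x σ j = 0) : x σ = 0 := w_ext e (mem_cm.1 c σ)

theorem drop [Module.Finite F M] (hx : x ∈ M ⊓ Cm j) (n : x σ ≠ 0) :
    finrank F ↥(M ⊓ Cm j ⊓ LinearMap.ker (ev σ)) + 1 = dm M j :=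
  le_antisymm (fr2 inf_le_left hx fun k => n k.2)
    (fr1 _ _ (LinearMap.proj j ∘ₗ ev σ) fun w m k => ⟨m, v0 m.2 k⟩)

theorem dead [Module.Finite F M] (h : B ≤ M) : M ⊓ Cm j ≤ B ↔ dm M j ≤ dm B j :=
  haveI := Submodule.finiteDimensional_of_le h
  ⟨fun e => Submodule.finrank_mono (le_inf e inf_le_right), fun e =>
    (Submodule.eq_of_le_of_finrank_le (inf_le_inf_right _ h) e).ge.trans inf_le_left⟩

theorem dm_le [Module.Finite F M] (h : B ≤ M) : dm B j ≤ dm M j :=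
  Submodule.finrank_mono (inf_le_inf_right _ h)

theorem slope (m : w ∈ Y) (c : w ∈ Cm j) (n : w τ j ≠ 0) :
    w ∈ nw Y (ev σ) (ev τ) (-(w σ j / w τ j)) :=
  ⟨m, w_ext (j := j) (show w σ j + -(w σ j / w τ j) * w τ j = 0 by
    rw [neg_mul, div_mul_cancel₀ _ n, add_neg_cancel])
    (show w σ (j + 1) + _ * w τ (j + 1) = 0 by
      rw [mem_cm.1 c σ, mem_cm.1 c τ, mul_zero, add_zero])⟩

variable (h : Sd B A R Y (ev σ) (ev τ))
include h

/-- a dual class which does not vanish -/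
theorem c1 (hz : z ∈ R ⊓ Cm (j + 1)) (n : z σ ≠ 0) (b : F) :
    nw Y (ev σ) (ev τ) b ⊓ Cm j = A ⊓ Cm j ⊓ LinearMap.ker (ev σ) :=
  le_antisymm (fun w m =>
    have k := h.back m.1 (wp_ln (mem_cm.1 m.2 τ) (hz.2 σ j (ne1 j)) (h.rc z hz.1 w m.1.1) n)
    ⟨⟨k.1, m.2⟩, k.2⟩) fun w m => ⟨h.s0 m.1.1 m.2, m.1.2⟩

theorem c1_le (hz : z ∈ R ⊓ Cm (j + 1)) (n : z σ ≠ 0) (b : F) :
    dm (nw Y (ev σ) (ev τ) b) j ≤ dm A j := by
  haveI := h.fs
  rw [dm, c1 h hz n]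
  exact Submodule.finrank_mono inf_le_left

theorem c1_eq (hz : z ∈ R ⊓ Cm (j + 1)) (n : z σ ≠ 0) (hx : x ∈ A ⊓ Cm j) (n' : x σ ≠ 0) (b : F) :
    dm (nw Y (ev σ) (ev τ) b) j + 1 = dm A j := by
  haveI := h.fs
  rw [dm, c1 h hz n, drop hx n']

theorem c3 (b : F) (j : Fin 2) : dm (nw Y (ev σ) (ev τ) b) j ≤ dm A j + 1 :=
  haveI := h.fs
  haveI := h.fn (b := b)
  fr1 _ _ (LinearMap.proj j ∘ₗ ev τ) fun w m k => ⟨(h.back m.1 (v0 m.2 k)).1, m.2⟩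

/-- at most one bad slope -/
theorem c2 (dd : A ⊓ Cm j ≤ B) (k : ¬ nw Y (ev σ) (ev τ) b ⊓ Cm j ≤ B)
    (k' : ¬ nw Y (ev σ) (ev τ) b' ⊓ Cm j ≤ B) : b = b' := by
  obtain ⟨w, m, nb⟩ := SetLike.not_le_iff_exists.1 k
  obtain ⟨w', m', nb'⟩ := SetLike.not_le_iff_exists.1 k'
  have c0 : w τ j ≠ 0 := fun o => nb (dd ⟨(h.back m.1 (v0 m.2 o)).1, m.2⟩)
  have c1 : w' τ j ≠ 0 := fun o => nb' (dd ⟨(h.back m'.1 (v0 m'.2 o)).1, m'.2⟩)
  have c : w τ j • w' - w' τ j • w ∈ Cm j :=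
    sub_mem (Submodule.smul_mem _ _ m'.2) (Submodule.smul_mem _ _ m.2)
  have v : w τ j * w' σ j - w' τ j * w σ j = 0 := congrFun (h.be _ (dd ⟨(h.st _).2
    ⟨sub_mem (Y.smul_mem _ m'.1.1) (Y.smul_mem _ m.1.1), v0 c
      (show w τ j * w' τ j - w' τ j * w τ j = 0 by ring)⟩, c⟩)) j
  have e : w σ j + b * w τ j = 0 := congrFun (mem_nw.1 m.1).2 j
  have e' : w' σ j + b' * w' τ j = 0 := congrFun (mem_nw.1 m'.1).2 j
  exact mul_left_cancel₀ (mul_ne_zero c0 c1) (by linear_combination v + w' τ j * e - w τ j * e')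

/-- a new class in the line `j` -/
theorem c4 [Module.Finite F R] (ar : A ≤ R) (rt : ∀ z ∈ R, z τ = 0)
    (fr : finrank F ↥(R ⊓ LinearMap.ker (ev σ)) + 2 ≤ finrank F ↥(Y ⊔ R))
    (e : ∀ z ∈ R, z σ (j + 1) = 0) : ∃ w ∈ Y, w τ j ≠ 0 := by
  by_contra no
  simp only [not_exists, not_and, not_not] at no
  haveI := h.fy
  have key : ∀ x ∈ Y ⊔ R, x τ (j + 1) = 0 → x ∈ R := fun x m k => by
    obtain ⟨v, hv, w, hw, rfl⟩ := Submodule.mem_sup.1 m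
    rw [Pi.add_apply, rt w hw, add_zero] at k
    exact add_mem (ar ((h.st v).2 ⟨hv, w_ext (no v hv) k⟩)) hw
  by_cases o : ∀ z ∈ R, z σ = 0
  · have : finrank F _ ≤ finrank F _ + 1 := fr1 (Y ⊔ R) (R ⊓ LinearMap.ker (ev σ)) (LinearMap.proj (j + 1) ∘ₗ ev τ)
      fun x m k => ⟨key x m k, o x (key x m k)⟩
    omega
  · simp only [not_forall, exists_prop] at o
    obtain ⟨z, m, n⟩ := o
    have := Submodule.finrank_mono (show Y ⊔ R ≤ R from sup_le (fun v hv => ar ((h.st v).2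
      ⟨hv, wp_ln (j := j + 1) (by rw [succ2]; exact no v hv) (e z m) (h.rc z m v hv) n⟩)) le_rfl)
    have : finrank F _ ≤ finrank F _ + 1 := fr1 R (R ⊓ LinearMap.ker (ev σ))
      (LinearMap.proj j ∘ₗ ev σ) fun x m k => ⟨m, w_ext k (e x m)⟩
    omega

end lin

variable {l q : ℕ} {a a' : GQ →* M2} {x y z : X} {S T Q : Finset ℕ} {pl pl' : Pl} {j : Fin 2}

theorem bl_cm (d : Dg a) : Bl a ⊤ ⊓ Cm j = F ∙ d0 (rh a) (Pi.single j 1) := by
  refine le_antisymm (fun x ⟨⟨v, e⟩, c⟩ => Submodule.mem_span_singleton.2 ⟨v j, ?_⟩)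
    ((Submodule.span_singleton_le_iff_mem _ _).2 ⟨Ul.d0_bl _ _, mem_cm.2 fun g => by
      rw [Ul.d0_ap, Pi.sub_apply, d.mv, Pi.single_eq_of_ne succ_ne, mul_zero, sub_zero]⟩)
  refine funext fun g => w_ext (j := j) ?_ ?_
  · rw [e g trivial, Pi.smul_apply, Ul.d0_ap, Ul.d0_ap, Pi.smul_apply, Pi.sub_apply, Pi.sub_apply,
      d.mv, d.mv, Pi.single_eq_same, smul_eq_mul]
    ring
  · rw [mem_cm.1 c g, Pi.smul_apply, Ul.d0_ap, Pi.smul_apply, Pi.sub_apply, d.mv,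
      Pi.single_eq_of_ne succ_ne, mul_zero, sub_zero, smul_zero]

theorem fb0 (d : Dg a) (t : Tv a j) : dm (Bl a ⊤) j = 0 := by
  rw [dm, bl_cm d, show d0 (rh a) (Pi.single j 1) = 0 from funext fun g => w_ext (j := j)
    (by rw [Ul.d0_ap, Pi.sub_apply, d.mv, t g, one_mul, sub_self]; rfl)
    (by rw [Ul.d0_ap, Pi.sub_apply, d.mv, Pi.single_eq_of_ne succ_ne, mul_zero, sub_zero]; rfl),
    Submodule.span_zero_singleton, finrank_bot]

theorem fb1 (d : Dg a) (t : ¬ Tv a j) : dm (Bl a ⊤) j = 1 := by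
  rw [dm, bl_cm d]
  refine finrank_span_singleton fun e => t fun g => ?_
  have := congrFun (congrFun e g) j
  rwa [Ul.d0_ap, Pi.sub_apply, d.mv, Pi.single_eq_same, mul_one, Pi.zero_apply, Pi.zero_apply,
    sub_eq_zero] at this

theorem nt (d : Dg a) (n : Nf a ⊤) (j : Fin 2) : ¬ Tv a j := fun t => Rz.not_nf d t _ n

theorem u1_any (r : Rs a S) (g : Ag pl pl' Q) (u : U1 a pl S l) : U1 a pl' S l := by
  by_cases m : l ∈ Q
  · obtain ⟨b, e⟩ := g.2.2.2 l m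
    exact ⟨u.pr, u.out, by rw [e, map_mul, u.fr, one_mul, (l1 r u).one _
      (pow_mem (inP_le_dec (pl.gn l u.pr (np r u)).1) b)]⟩
  · exact ⟨u.pr, u.out, g.2.2.1 l m ▸ u.fr⟩

theorem up_of (g : Ag pl pl' {q}) (n : q ≠ pp) : ∃ b, pl' = up pl q b := by
  obtain ⟨b, e⟩ := g.2.2.2 q (Finset.mem_singleton_self _)
  obtain ⟨P, σ, τ, _, _, _⟩ := pl'
  obtain ⟨rfl, rfl, g3, -⟩ := g
  refine ⟨b, ?_⟩
  obtain rfl : σ = (up pl q b).σ := funext fun l => by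
    by_cases k : l = q
    · rw [k, up_eq n]; exact e
    · rw [up_ne k]; exact g3 l (by simpa using k)
  rfl

variable (r : Rs a S) (u : ∀ x ∈ Q, U1 a pl S x) (uq : U1 a pl S q) (nq : q ∉ Q)
include r u uq nq

theorem st_nat (b : ℕ) : St a (up pl q b) S (insert q Q) =
    nw (Yb a pl S Q q ⊓ Ur a (pl.P pp)) (ev (pl.σ q)) (ev (pl.τ q)) (b : F) :=
  Submodule.ext fun x => (and_congr_left' (new r u uq nq b)).trans and_right_comm

/-- no condition at the new prime -/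
theorem exv : finrank F ↥(Rl a pl S Q ⊓ LinearMap.ker (ev (pl.σ q))) + 2 ≤
    finrank F ↥(Yb a pl S Q q ⊓ Ur a (pl.P pp) ⊔ Rl a pl S Q) := by
  obtain ⟨f, i⟩ := inv pl
  have r' := rs1 r u uq nq
  have h := l1 r uq
  have n := np r uq
  obtain ⟨g1, g2, g3, g4, g5⟩ := gwl1 a pl S Q r u
  have lq := fun l m => locq a l _ _ r.toR0 (pl.ov l (r'.pr l m)) (i.loc l (r'.pr l m))
  have mq : q ∈ S ∪ insert q Q := by simp
  have e : (S ∪ insert q Q).erase q = insert pp ((S ∪ Q).erase pp) := by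
    rw [Finset.union_insert, Finset.erase_insert (by simp [uq.out, nq]),
      Finset.insert_erase (Finset.mem_union_left _ r.pm)]
  let L : ℕ → Submodule F X := fun l =>
    if l = pp then Ur a (pl.P pp) ⊔ Rl a pl S Q else Lc a pl Q l
  have mem : ∀ y, y ∈ sl (Zg a (S ∪ insert q Q)) ((S ∪ insert q Q).erase q) L ↔
      y ∈ Yb a pl S Q q ∧ y ∈ Ur a (pl.P pp) ⊔ Rl a pl S Q := fun y => by
    rw [Yb, mem_sl, mem_sl, e, Finset.forall_mem_insert, and_assoc, and_comm (a := y ∈ L pp)]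
    exact and_congr_right fun _ => and_congr (forall₂_congr fun l k => by
      simp only [L, if_neg (Finset.ne_of_mem_erase k)]) (by simp only [L, if_pos])
  obtain ⟨lqq, eq⟩ := lq q mq
  have rad := lqq.rad
  have oc : ot (Cl a (dec (pl.P q))) (bt a (f q)) (Bl a (dec (pl.P q))) = Cl a (dec (pl.P q)) := by
    conv_lhs => rw [← rad]
    exact (laga _ _ _ _ _ _ lqq (b_le r.toR0) le_rfl).1
  obtain ⟨-, c⟩ := gwa _ _ _ _ _ L _ _ (Bl a (dec (pl.P q))) q (qs0 a pl _ f r' i) mq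
    (fun l m => by
      have m' := Finset.mem_of_mem_erase m
      by_cases k : l = pp
      · subst k
        simp only [L, if_pos]
        rw [(lq _ m').2 _ (sup_le ur_le (show Rl a pl S Q ≤ _ from fun _ p => p.2.1)), g5]
      · simp only [L, if_neg k]
        rw [(lq l m').2 _ (lc_le l), (Ki.lc_lag r u (r'.pr l m') k).1]) le_rfl
    (by rw [oc]; exact b_le r.toR0)
  rw [oc, dim a q _ r.toR0 h.ov, h.hz2, if_neg n] at c
  haveI := zg_fin r'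
  haveI := g1
  haveI := (sd r u uq nq).fy
  have le : sl (Zg a (S ∪ insert q Q)) ((S ∪ insert q Q).erase q) L ⊓ Cl a (dec (pl.P q)) ≤
      Yb a pl S Q q ⊓ Ur a (pl.P pp) ⊔ Rl a pl S Q := fun y m => by
    obtain ⟨m1, m2⟩ := (mem y).1 m.1
    obtain ⟨v, hv, w, hw, rfl⟩ := Submodule.mem_sup.1 m2
    exact Submodule.add_mem_sup ⟨by simpa using sub_mem m1 ((old r u uq nq).1 hw.1).1, hv⟩ hw
  have ge : Rl a pl S Q ⊓ LinearMap.ker (ev (pl.σ q)) ≤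
      sl (Zg a (S ∪ insert q Q)) ((S ∪ insert q Q).erase q) L ⊓ Bl a (dec (pl.P q)) := fun y m =>
    ⟨(mem y).2 ⟨((old r u uq nq).1 m.1.1).1, Submodule.mem_sup_right m.1⟩,
      h.ext (pl.fb q uq.pr) (pl.gn q uq.pr n) (zg_cl _ m.1.1.1) m.2 ((old r u uq nq).1 m.1.1).2⟩
  haveI : Module.Finite F ↥(sl (Zg a (S ∪ insert q Q)) ((S ∪ insert q Q).erase q) L ⊓
      Bl a (dec (pl.P q))) := Submodule.finiteDimensional_of_le (S₂ := Zg a (S ∪ insert q Q))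
        (inf_le_left.trans inf_le_left)
  have := Submodule.finrank_mono le
  have := Submodule.finrank_mono ge
  omega

/-- the bad slope exists -/
theorem bad (d : Dg a) (k : St a pl S Q ⊓ Cm j ≤ Bl a ⊤) (k' : Rl a pl S Q ⊓ Cm (j + 1) ≤ Bl a ⊤) :
    ∃ b, ¬ nw (Yb a pl S Q q ⊓ Ur a (pl.P pp)) (ev (pl.σ q)) (ev (pl.τ q)) b ⊓ Cm j ≤ Bl a ⊤ := by
  have h := sd r u uq nq
  obtain ⟨g1, g2, g3, -⟩ := gwl1 a pl S Q r u
  obtain ⟨w, m, n⟩ := c4 (j := j) h g3 (fun z m => ((old r u uq nq).1 m.1).2) (exv r u uq nq)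
    fun z m => by
      have := congrFun (h.be _ (k' ⟨d.rl pl S Q _ z m, pj_cm⟩)) (j + 1)
      exact pw_self.symm.trans this
  have m' := ((d.zg _).sl (d.lc pl Q)).inf (d.ur _) j w m
  have n' : pj j w (pl.τ q) j ≠ 0 := fun e => n (pw_self.symm.trans e)
  refine ⟨_, fun e => n' (congrFun ((h.st _).1 (g2 (e ⟨slope m' pj_cm n', pj_cm⟩))).2 j)⟩

end Kr

end Vale.Agent.P014Y.Rk
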