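import Vale.Agent.P014Y.Md.Tw1
import Vale.Agent.P014Y.F.Pt.Pe

/-! # P014Y, block RK: the tower with an open condition at the two helper primes (helper55) -/

set_option autoImplicit false
set_option linter.all false

noncomputable section

namespace Vale.Agent.P014Y.Rk.Tv

open NumberField Matrix
open Vale.Agent.P022 (Qb GQ GK)
open Vale.Agent.P027M.S (Inert)
open Vale.Agent.P022D.W (dec)
open Vale.Agent.P022E.GW (Ov Fb)
open Vale.Agent.P014U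
open L2 (W M2)
open P004K P004R
open P004F.Pt (Dh fx_mul fx_inv fx_pow)
open P014Y.F (Crv Fld)
open P014Y.F.Pt (N1 twr2 fx_pw)
open Tp (Lz)
open Mu Mu.Tv

section

variable [Pp] {e : Crv} (b : Fld e)

/-- good elements in every coset -/
theorem ex_gq : ∃ (m : ℕ) (κ : GQ), κ ∈ b.Γ ∧ rb e κ = 1 ∧ (∀ n, Fx (N1 b.j) (pp ^ n) κ) ∧
    ∀ g, Fx {1} pp g → ∃ i, X4F.En.Gq e.rp m (g * κ ^ (2 * pp * i)) := by
  obtain ⟨k, k0, k2, k3⟩ := b.ex_big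
  obtain ⟨m, hm⟩ := k2.gq e.rep (mul_ne_zero two_ne_zero pp_ne)
  refine ⟨m, k, k0, e.tr_one.1 (k2.tr.mono (by norm_num)), fun n y hy => k3 n y (.inr ?_),
    fun g f => (hm g ?_).imp fun _ a => a.2⟩
  · obtain ⟨x, h⟩ := P022D.Sel.KillAux.fix_range b.j _ hy.2.1
    exact ⟨x, fun z => hy.1 (by rw [← h, Set.mem_singleton_iff.1 z, map_zero]), h⟩
  · have := (PadicInt.norm_lt_one_iff_dvd _).2 ((dvd_pow_self _ one_ne_zero).trans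
      (Pg.Hm_two.1 (show g ∈ P014T.Dr.Hm (pp ^ 1) from fun y hy => f y (by rwa [pow_one] at hy))))
    rw [← X4S.lt_one_iff, show X4S.ep e.rp g = ((e.r g).det : ℤ_[pp]) from
      (RingHom.map_det PadicInt.Coe.ringHom _).symm, Crv.r, X4M.TE.det_cyc]
    exact this

end

variable {e : Crv} (b : Fld e)

/-- **the tower with prescribed values and an open condition** -/
theorem twg (r1 : RC1) (r2 : RC2) (r3 : RC3) (k : ℕ) (Q : Finset ℕ)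
    (P : ℕ → Ideal (𝓞 Qb)) (σ : ℕ → GQ) (v : ℕ → ZMod (3 * 3 ^ k))
    (hQ : ∀ q ∈ Q, Gt b (k + 1) (e.S.toFinset ∪ b.δ'.primeFactors ∪ Finset.range 18) q ∧
      Ov q (P q) ∧ Fb q (P q) (σ q)) {U : Subgroup GQ} (hU : IsOpen (U : Set GQ)) {G : GQ → Prop}
    (stb : ∀ g, ∀ u ∈ U, G g → G (g * u))
    (ex : ∀ h ∈ b.Γ, Fx {1} (pp ^ (k + 1)) h →
      ∃ x ∈ b.Γ, Fx (N1 b.j) (pp ^ (k + 1)) x ∧ G (h * x)) :
    ∃ (c : ℕ) (χ : GQ → ZMod (3 * 3 ^ k)), Lz b k c χ ∧ (∀ q ∈ Q, q ∣ c ∧ χ (σ q) = v q) ∧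
      c.primeFactors.card ≤ Q.card + 2 ∧ ∀ q : ℕ, q.Prime → q ∣ c → Gt b (k + 1) ∅ q ∧ q ∉ e.S ∧
        (q ∈ Q ∨ ∃ P ψ, Ov q P ∧ Fb q P ψ ∧ G ψ) := by
  classical
  have out (q) (m : q ∈ Q) : q ∉ e.S ∧ ¬ q ∣ b.δ' ∧ 17 < q := by
    have := (hQ q m).1.nE
    simp only [Finset.mem_union, not_or, List.mem_toFinset, Finset.mem_range] at this
    exact ⟨this.1.1, fun d => this.1.2 (Nat.mem_primeFactors.2 ⟨(hQ q m).1.pr, d, b.pos.ne'⟩),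
      by omega⟩
  obtain ⟨R, χ, sub, cd, hR, D, rm, un⟩ : ∃ (R : Finset ℕ) (χ : GQ → ZMod (3 * 3 ^ k)), Q ⊆ R ∧
      R.card = Q.card + 2 ∧ (∀ q ∈ R, q ∉ Q → q ∉ Finset.range 18 ∧ q ∉ e.S.toFinset ∧ ¬ q ∣ b.δ' ∧
        q % pp ^ (k + 1) = 1 ∧ ∃ P ψ, Ov q P ∧ ψ ∈ b.Γ ∧ Fb q P ψ ∧ G ψ) ∧
      Dh b.j (∏ l ∈ R, l) χ ∧ (∀ l ∈ R, ∀ P', Ov l P' → ∃ τ ∈ b.Γ, Inert P' τ ∧ χ τ = 1) ∧
      ∀ p ∈ e.S.toFinset ∪ Q, χ (if p ∈ e.S then b.φ p else σ p) = if p ∈ e.S then 1 else v p := by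
    revert v
    rw [← pow_succ' 3 k]
    exact fun v => twr2 (n := k) r1 r2 r3 b.kd (P := fun p => if p ∈ e.S then e.P p else P p)
      (fun p m => by
        split_ifs with a
        · exact ⟨e.ov p a, b.le p a, b.ch.frb p a⟩
        · have m := (Finset.mem_union.1 m).resolve_left (mt List.mem_toFinset.1 a)
          exact ⟨(hQ p m).2.1, (hQ p m).1.sq _ (hQ p m).2.1, (hQ p m).2.2⟩)
      (List.mem_toFinset.2 e.pm) _
      (fun l m => ⟨(hQ l m).1.pr, mt List.mem_toFinset.1 (out l m).1,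
        Eq.trans (hQ l m).1.md (Nat.mod_eq_of_lt (F.Pt.one_lt_pow' k)), (hQ l m).1.sq⟩)
      hU stb ex _
  have hT : ∀ l ∈ R, (l.Prime ∧ l ∉ e.S ∧ ¬ l ∣ b.δ' ∧ 17 < l ∧ Sq b.Γ l) ∧
      l ≡ 1 [MOD 3 ^ (k + 1)] ∧ (l ∈ Q ∨ ∃ P ψ, Ov l P ∧ Fb l P ψ ∧ G ψ) := fun l a => by
    by_cases m : l ∈ Q
    · exact ⟨⟨(hQ l m).1.pr, (out l m).1, (out l m).2.1, (out l m).2.2, (hQ l m).1.sq⟩,
        (hQ l m).1.md, .inl m⟩
    · obtain ⟨a1, a2, a3, a4, P', ψ, o, m', f, t⟩ := hR l a m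
      have a2 := mt List.mem_toFinset.2 a2
      exact ⟨⟨o.1, a2, a3, by rw [Finset.mem_range] at a1; omega,
        fun P' o' => Wr.dec_gk b.kd o (e.ne_two a2) a3 f m' o'⟩,
        a4.trans (Nat.mod_eq_of_lt (F.Pt.one_lt_pow' k)).symm, .inr ⟨P', ψ, o, f, t⟩⟩
  have L := lz b r1 r2 (Finset.card_pos.1 (by omega)) (fun l a => (hT l a).1) D rm fun p m => by
    have := un p (Finset.mem_union_left _ (List.mem_toFinset.2 m))
    rw [if_pos m, if_pos m] at this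
    exact this ▸ isUnit_one
  have pf := Nat.primeFactors_prod fun l a => (hT l a).1.1
  refine ⟨_, χ, L, fun l a => ⟨Finset.dvd_prod_of_mem _ (sub a), ?_⟩, pf.symm ▸ cd.le, fun l hl d => ?_⟩
  · have := un l (Finset.mem_union_right _ a)
    rwa [if_neg (out l a).1, if_neg (out l a).1] at this
  · obtain ⟨a1, a2, a3⟩ := hT l (pf ▸ Nat.mem_primeFactors.2 ⟨hl, d, L.sq.ne_zero⟩)
    exact ⟨⟨hl, Finset.notMem_empty _, a2, a1.2.2.2.2⟩, a1.2.1, a3⟩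

end Vale.Agent.P014Y.Rk.Tv
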